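import Vale.Agent.P219.TPH.ModelH

/-! # The functional isoperimetric inequality in an abstract Cartan-Hadamard geometry -/

open MeasureTheory Set Metric
open scoped ENNReal ContDiff

namespace Vale.Agent.P219.TPH

open Vale.Agent.P219.TP

variable {n : ℕ}

/-- Rauch comparison with curvature `-k²`. -/
def MonoSn (G : Geo n) (k : ℝ) : Prop :=
  ∀ (x v z : E n) (s : ℝ), inner ℝ v z = 0 → 0 < s → s ≤ 1 →
    s * sn k ‖v‖ * ‖G.T x (s • v) z‖ ≤ sn k (s * ‖v‖) * ‖G.T x v z‖

theorem MonoSn.zero (G : Geo n) : MonoSn G 0 := by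
  intro x v z s hz hs hs1
  have h := G.mono x v z s hz hs.le hs1
  simp only [h1_sn_z]
  exact mul_le_mul_of_nonneg_left h (mul_nonneg hs.le (norm_nonneg v))

theorem Curv.monoSn {G : Geo n} {k : ℝ} (h : Curv G k) : MonoSn G k := h.mono_sn

/-- The isoperimetric inequality for functions, in all geometries of curvature at most `-k²`. -/
def FuncIso (n : ℕ) (k : ℝ) : Prop :=
  ∀ G : Geo n, MonoSn G k → ∀ h : E n → ℝ, ContDiff ℝ 1 h → HasCompactSupport h →
    (∀ x, 0 ≤ h x ∧ h x ≤ 1) → ∀ R : ℝ, 0 ≤ R → VR n k R ≤ G.vol.real {x | h x = 1} →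
    AR n k R ≤ G.per h

end Vale.Agent.P219.TPH
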