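import Vale.Agent.P219.End.BundleLim
import Vale.Agent.P219.TPH.SliceH

/-! # P219, all dimensions: from near minimisers to one-sided stationarity of the limit -/

open MeasureTheory Set Metric Filter Topology
open scoped ENNReal NNReal ContDiff

namespace Vale.Agent.P219.SA

open Vale.Agent.P219.TP Vale.Agent.P219.TPH
open Vale.Agent.P219.End (KS nrm isCompact_KS exists_limit_ultra)

variable {n : ℕ} (G : Geo n)

/-- A minimising sequence with thin layers, along an ultrafilter. -/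
structure MinSeq (o : E n) (ρ : ℝ) (I : ℝ → ℝ) (J Vs : ℝ) (U : Ultrafilter ℕ)
    (h : ℕ → E n → ℝ) : Prop where
  cls : ∀ j, G.Cls o ρ (h j)
  inf : ∀ g, G.Cls o ρ g → J ≤ G.per g - I (V1 G g)
  lim : Tendsto (fun j => G.per (h j) - I (V1 G (h j))) U (𝓝 J)
  thin : Tendsto (fun j => G.vol.real {x | 0 < h j x ∧ h j x < 1}) U (𝓝 0)
  vol : Tendsto (fun j => V1 G (h j)) U (𝓝 Vs)

/-- `V` is the limit of the measures `|dh_j| dvol` on the unit normal bundle. -/
structure IsLim (o : E n) (ρ : ℝ) (U : Ultrafilter ℕ) (h : ℕ → E n → ℝ)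
    (V : Measure (E n × E n)) : Prop where
  fin : IsFiniteMeasure V
  supp : V (KS G o ρ)ᶜ = 0
  lim : ∀ φ : E n × E n → ℝ, ContinuousOn φ (KS G o ρ) →
    Tendsto (fun j => ∫ x, φ (x, nrm G (h j) x) * ‖G.D (h j) x‖ ∂G.vol) U (𝓝 (∫ z, φ z ∂V))

theorem exists_isLim {o : E n} {ρ : ℝ} {h : ℕ → E n → ℝ} (hc : ∀ j, G.Cls o ρ (h j))
    {A : ℝ} (hA : ∀ j, G.per (h j) ≤ A) (U : Ultrafilter ℕ) :
    ∃ V : Measure (E n × E n), IsLim G o ρ U h V := by
  obtain ⟨V, h1, h2, h3⟩ := exists_limit_ultra G U h hc hA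
  exact ⟨V, h1, h2, h3⟩

theorem IsLim.mass {o : E n} {ρ : ℝ} {U : Ultrafilter ℕ} {h : ℕ → E n → ℝ}
    {V : Measure (E n × E n)} (hV : IsLim G o ρ U h V) :
    Tendsto (fun j => G.per (h j)) U (𝓝 (V.real univ)) := by
  have h1 := hV.lim (fun _ => 1) continuousOn_const
  simp only [one_mul, integral_const, smul_eq_mul, mul_one] at h1
  exact h1

/-- First variation of perimeter and volume along a contraction, `a` = perimeter integrand,
`b` = volume integrand. -/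
def Var (o : E n) (ρ : ℝ) (a b : E n × E n → ℝ) : Prop :=
  ∃ C t₀ : ℝ, 0 ≤ C ∧ 0 < t₀ ∧ ∀ h, G.Cls o ρ h → ∀ t : ℝ, 0 ≤ t → t ≤ t₀ →
    ∃ h', G.Cls o ρ h' ∧
      G.per h' ≤ G.per h - t * (∫ x, a (x, nrm G h x) * ‖G.D h x‖ ∂G.vol) +
        C * t ^ 2 * G.per h ∧
      V1 G h - t * (∫ x, b (x, nrm G h x) * ‖G.D h x‖ ∂G.vol) -
        C * t * G.vol.real {x | 0 < h x ∧ h x < 1} - C * t ^ 2 ≤ V1 G h'

theorem pass_small {a b : ℝ} (ha : 0 ≤ a) (hb : 0 < b) :
    ∃ t₀ > 0, ∀ t, 0 ≤ t → t ≤ t₀ → a * t ≤ b := by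
  refine ⟨b / (a + 1), by positivity, fun t h0 h1 => ?_⟩
  rw [le_div_iff₀ (by positivity)] at h1
  nlinarith

/-- The arithmetic of one descent step. -/
theorem pass_arith {J P P' IV IV' X Y d H C c t th s M B : ℝ} (ht : 0 < t)
    (hC : 0 ≤ C) (hM : P ≤ M) (hd : 0 < d)
    (h1 : J ≤ P' - IV') (h2 : P' ≤ P - t * X + C * t ^ 2 * P)
    (hs : s = t * Y + C * t * th + C * t ^ 2) (h3 : IV - H * s - c * |s| ≤ IV')
    (h4 : P - IV ≤ J + t * (d / 16)) (hsB : |s| ≤ t * B) (hc : 0 ≤ c) (hcB : c * B ≤ d / 16)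
    (hXY : H * Y - X ≤ -(d / 2)) (hCM : C * M * t ≤ d / 16) (hHC : H * C * t ≤ d / 16)
    (hHth : H * C * th ≤ d / 16) : False := by
  have e1 : c * |s| ≤ t * (d / 16) := by
    calc c * |s| ≤ c * (t * B) := mul_le_mul_of_nonneg_left hsB hc
      _ = t * (c * B) := by ring
      _ ≤ t * (d / 16) := mul_le_mul_of_nonneg_left hcB ht.le
  have e2 : C * t ^ 2 * P ≤ t * (d / 16) := by
    calc C * t ^ 2 * P ≤ C * t ^ 2 * M := mul_le_mul_of_nonneg_left hM (by positivity)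
      _ = t * (C * M * t) := by ring
      _ ≤ t * (d / 16) := mul_le_mul_of_nonneg_left hCM ht.le
  have e3 : H * s = t * (H * Y) + t * (H * C * th) + t * (H * C * t) := by rw [hs]; ring
  have e4 : t * (H * C * th) ≤ t * (d / 16) := mul_le_mul_of_nonneg_left hHth ht.le
  have e5 : t * (H * C * t) ≤ t * (d / 16) := mul_le_mul_of_nonneg_left hHC ht.le
  have e6 : t * (H * Y - X) ≤ t * (-(d / 2)) := mul_le_mul_of_nonneg_left hXY ht.le
  have e7 : 0 < t * d := mul_pos ht hd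
  nlinarith

/-- **One-sided stationarity of the limit.** -/
theorem stat_pass {o : E n} {ρ : ℝ} {I : ℝ → ℝ} {J Vs H : ℝ} {U : Ultrafilter ℕ}
    {h : ℕ → E n → ℝ} {V : Measure (E n × E n)} (hImono : MonotoneOn I (Ici 0)) (hVs : 0 < Vs)
    (hH : 0 ≤ H) (hId : HasStrictDerivAt I H Vs) (hm : MinSeq G o ρ I J Vs U h)
    (hV : IsLim G o ρ U h V) {a b : E n × E n → ℝ} (ha : ContinuousOn a (KS G o ρ))
    (hb : ContinuousOn b (KS G o ρ))
    (hvar : Var G o ρ a b) : 0 ≤ H * (∫ z, b z ∂V) - ∫ z, a z ∂V := by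
  by_contra hneg
  rw [not_le] at hneg
  obtain ⟨C, t₀, hC, ht₀, hcon⟩ := hvar
  have hXl := hV.lim a ha
  have hYl := hV.lim b hb
  have hPl := IsLim.mass G hV
  set X : ℝ := ∫ z, a z ∂V with hX
  set Y : ℝ := ∫ z, b z ∂V with hY
  set M : ℝ := V.real univ + 1 with hM
  have hM0 : 0 ≤ M := by
    have : 0 ≤ V.real univ := measureReal_nonneg
    linarith
  obtain ⟨d, hd⟩ : ∃ d, d = X - H * Y := ⟨_, rfl⟩
  have hd0 : 0 < d := by linarith
  set B : ℝ := |Y| + 1 + 2 * C with hB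
  have hB0 : 0 < B := by positivity
  obtain ⟨c, hcp, hcs⟩ := pass_small hB0.le (b := d / 16) (by positivity)
  have hcB : c * B ≤ d / 16 := by
    have := hcs c hcp.le le_rfl
    linarith [mul_comm B c]
  obtain ⟨δ₁, hδ₁, hstrict⟩ : ∃ δ₁ > 0, ∀ V V' : ℝ, |V - Vs| < δ₁ → |V' - Vs| < δ₁ →
      |I V' - I V - (V' - V) * H| ≤ c * |V' - V| := by
    have h1 := hId.isLittleO.def hcp
    obtain ⟨δ₁, hδ₁, h2⟩ := Metric.eventually_nhds_iff.1 h1
    refine ⟨δ₁, hδ₁, fun V V' hV hV' => ?_⟩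
    have h3 := @h2 (V', V) (by
      rw [Prod.dist_eq, Real.dist_eq, Real.dist_eq]
      exact max_lt hV' hV)
    simpa [Real.norm_eq_abs, smul_eq_mul] using h3
  have hδV : 0 < min δ₁ Vs / 4 := by positivity
  obtain ⟨t₁, ht₁, ht₁'⟩ := pass_small hB0.le hδV
  obtain ⟨t₂, ht₂, ht₂'⟩ := pass_small (a := C * M) (by positivity)
    (b := d / 16) (by positivity)
  obtain ⟨t₃, ht₃, ht₃'⟩ := pass_small (a := H * C) (by positivity)
    (b := d / 16) (by positivity)
  obtain ⟨t, ht⟩ : ∃ t : ℝ, t = min (min t₀ 1) (min t₁ (min t₂ t₃)) := ⟨_, rfl⟩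
  have htp : 0 < t := by rw [ht]; positivity
  have htt₀ : t ≤ t₀ := ht ▸ (min_le_left _ _).trans (min_le_left _ _)
  have ht1 : t ≤ 1 := ht ▸ (min_le_left _ _).trans (min_le_right _ _)
  have htB := ht₁' t htp.le (ht ▸ (min_le_right _ _).trans (min_le_left _ _))
  have htM := ht₂' t htp.le (ht ▸ (min_le_right _ _).trans ((min_le_right _ _).trans
    (min_le_left _ _)))
  have htH := ht₃' t htp.le (ht ▸ (min_le_right _ _).trans ((min_le_right _ _).trans
    (min_le_right _ _)))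
  -- eventually
  have E1 : ∀ᶠ j in (U : Filter ℕ), G.per (h j) < M :=
    hPl.eventually (gt_mem_nhds (by linarith))
  have E2 : ∀ᶠ j in (U : Filter ℕ),
      H * (∫ x, b (x, nrm G (h j) x) * ‖G.D (h j) x‖ ∂G.vol) -
        (∫ x, a (x, nrm G (h j) x) * ‖G.D (h j) x‖ ∂G.vol) < -(d / 2) :=
    ((hYl.const_mul H).sub hXl).eventually (gt_mem_nhds (by linarith))
  have E3 : ∀ᶠ j in (U : Filter ℕ), |∫ x, b (x, nrm G (h j) x) * ‖G.D (h j) x‖ ∂G.vol| <
      |Y| + 1 := hYl.abs.eventually (gt_mem_nhds (by linarith))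
  have E4 : ∀ᶠ j in (U : Filter ℕ), H * C * G.vol.real {x | 0 < h j x ∧ h j x < 1} < d / 16 := by
    have := hm.thin.const_mul (H * C)
    rw [mul_zero] at this
    exact this.eventually (gt_mem_nhds (by positivity))
  have E5 : ∀ᶠ j in (U : Filter ℕ), G.vol.real {x | 0 < h j x ∧ h j x < 1} < 1 :=
    hm.thin.eventually (gt_mem_nhds one_pos)
  have E6 : ∀ᶠ j in (U : Filter ℕ), |V1 G (h j) - Vs| < min δ₁ Vs / 4 := by
    have := (Metric.tendsto_nhds.1 hm.vol) _ hδV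
    filter_upwards [this] with j hj
    rwa [Real.dist_eq] at hj
  have E7 : ∀ᶠ j in (U : Filter ℕ), G.per (h j) - I (V1 G (h j)) < J + t * (d / 16) :=
    hm.lim.eventually (gt_mem_nhds (by linarith [mul_pos htp (show 0 < d / 16 by positivity)]))
  obtain ⟨j, e1, e2, e3, e4, e5, e6, e7⟩ :=
    (E1.and (E2.and (E3.and (E4.and (E5.and (E6.and E7)))))).exists
  obtain ⟨h', hh', hper, hvol⟩ := hcon (h j) (hm.cls j) t htp.le htt₀
  set Xj : ℝ := ∫ x, a (x, nrm G (h j) x) * ‖G.D (h j) x‖ ∂G.vol with hXj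
  set Yj : ℝ := ∫ x, b (x, nrm G (h j) x) * ‖G.D (h j) x‖ ∂G.vol with hYj
  set th : ℝ := G.vol.real {x | 0 < h j x ∧ h j x < 1} with hth
  have hth0 : 0 ≤ th := measureReal_nonneg
  obtain ⟨s, hs⟩ : ∃ s, s = t * Yj + C * t * th + C * t ^ 2 := ⟨_, rfl⟩
  have hsB : |s| ≤ t * B := by
    have h1 : |t * Yj| ≤ t * (|Y| + 1) := by
      rw [abs_mul, abs_of_pos htp]
      exact mul_le_mul_of_nonneg_left e3.le htp.le
    have h2 : C * t * th ≤ C * t * 1 := mul_le_mul_of_nonneg_left e5.le (by positivity)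
    have h3 : C * t ^ 2 ≤ C * t * 1 := by
      have : C * t ^ 2 = C * t * t := by ring
      rw [this]
      exact mul_le_mul_of_nonneg_left ht1 (by positivity)
    have h4 : 0 ≤ C * t * th := by positivity
    have h5 : 0 ≤ C * t ^ 2 := by positivity
    have h6 := abs_le.1 h1
    have h7 : t * B = t * (|Y| + 1) + 2 * (C * t * 1) := by rw [hB]; ring
    rw [hs, h7, abs_le]
    constructor
    · linarith
    · linarith
  have hsx : |s| ≤ min δ₁ Vs / 4 := hsB.trans (by linarith [mul_comm B t])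
  have hmin : min δ₁ Vs ≤ δ₁ := min_le_left _ _
  have hmin' : min δ₁ Vs ≤ Vs := min_le_right _ _
  have e6' := abs_lt.1 e6
  have hsx' := abs_le.1 hsx
  have hVx : V1 G (h j) - s ≤ V1 G h' := by rw [hs]; linarith
  have hVx0 : 0 ≤ V1 G (h j) - s := by linarith
  have hI1 : I (V1 G (h j) - s) ≤ I (V1 G h') := hImono hVx0 measureReal_nonneg hVx
  have hI2 := hstrict (V1 G (h j)) (V1 G (h j) - s) (by rw [abs_lt]; constructor <;> linarith)
    (by rw [abs_lt]; constructor <;> linarith)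
  have hI3 : I (V1 G (h j)) - H * s - c * |s| ≤ I (V1 G h') := by
    have h1 : V1 G (h j) - s - V1 G (h j) = -s := by ring
    rw [h1, abs_neg] at hI2
    have h2 := (abs_le.1 hI2).1
    linarith
  exact pass_arith (J := J) (P := G.per (h j)) (P' := G.per h') (IV := I (V1 G (h j)))
    (IV' := I (V1 G h')) (X := Xj) (Y := Yj) (d := d) htp hC e1.le hd0 (hm.inf h' hh')
    hper hs hI3 (by linarith) hsB hcp.le hcB e2.le htM (by linarith [mul_comm (H * C) t])
    (by linarith)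

end Vale.Agent.P219.SA
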