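import Vale.Agent.P219.SA.Mk
import Vale.Agent.P219.End.Gamma

/-! # P219, all dimensions: the density field

From the flat Gaussian density at one scale, at centres close to a point `p` of the support, to the
bubble density at `p`: Gaussian monotonicity (one-sided stationarity, with `F = r² / 2`), passage
`c → p`, comparison of `(cosh (k r) - 1) / k²` with `r² / 2` at small distances, and the mixture
formula. -/

open MeasureTheory Set Metric Filter Topology
open scoped ENNReal NNReal ContDiff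

namespace Vale.Agent.P219.SA

open Vale.Agent.P219.TP Vale.Agent.P219.TPH
open Vale.Agent.P219.End (FG ff chi sg KS Lim Gam bub thf q0 SnLe aF bF)

variable {n : ℕ} (G : Geo n)

/-- `∫ e^{-t r_c²} dV` -/
noncomputable def gL (V : Measure (E n × E n)) (c : E n) (t : ℝ) : ℝ :=
  ∫ z, Real.exp (-t * ‖G.lg c z.1‖ ^ 2) ∂V

/-- `(t/π)^{m/2} ∫ e^{-t r_c²} dV` -/
noncomputable def gI (V : Measure (E n × E n)) (c : E n) (t : ℝ) : ℝ :=
  (t / Real.pi) ^ (((n : ℝ) - 1) / 2) * gL G V c t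

theorem FG_zero_eq (c x : E n) : FG G 0 c x = ‖G.lg c x‖ ^ 2 / 2 := by
  unfold FG
  rw [End.ff_sq]
  simp only [sn, if_true]
  ring

theorem lgq_continuous (c : E n) : Continuous fun x => ‖G.lg c x‖ ^ 2 :=
  ((G.lg_smooth_right c).continuous.norm).pow 2

theorem lgq_continuous_left (x : E n) : Continuous fun c => ‖G.lg c x‖ ^ 2 :=
  ((G.lg_smooth.continuous.comp (continuous_id.prodMk continuous_const)).norm).pow 2

theorem gexp_continuous (c : E n) (t : ℝ) :
    Continuous fun z : E n × E n => Real.exp (-t * ‖G.lg c z.1‖ ^ 2) :=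
  Real.continuous_exp.comp (((lgq_continuous G c).comp continuous_fst).const_mul (-t))

theorem exp_lgq_le {t : ℝ} (ht : 0 ≤ t) (c : E n) (z : E n × E n) :
    ‖Real.exp (-t * ‖G.lg c z.1‖ ^ 2)‖ ≤ 1 := by
  rw [Real.norm_of_nonneg (Real.exp_pos _).le]
  apply Real.exp_le_one_iff.2
  have := mul_nonneg ht (sq_nonneg ‖G.lg c z.1‖)
  linarith

theorem gL_nonneg (V : Measure (E n × E n)) (c : E n) (t : ℝ) : 0 ≤ gL G V c t :=
  integral_nonneg fun _ => (Real.exp_pos _).le

theorem gexp_integrable (V : Measure (E n × E n)) [IsFiniteMeasure V] (c : E n) {t : ℝ}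
    (ht : 0 ≤ t) : Integrable (fun z : E n × E n => Real.exp (-t * ‖G.lg c z.1‖ ^ 2)) V :=
  Integrable.of_bound (gexp_continuous G c t).aestronglyMeasurable 1
    (Eventually.of_forall fun z => exp_lgq_le G ht c z)

/-- derivative in `t` -/
theorem hasDerivAt_gL (V : Measure (E n × E n)) [IsFiniteMeasure V] (c : E n) {t : ℝ}
    (ht : 0 < t) :
    HasDerivAt (gL G V c)
      (-∫ z, ‖G.lg c z.1‖ ^ 2 * Real.exp (-t * ‖G.lg c z.1‖ ^ 2) ∂V) t := by
  have hmain := hasDerivAt_integral_of_dominated_loc_of_deriv_le (μ := V)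
    (F := fun t (z : E n × E n) => Real.exp (-t * ‖G.lg c z.1‖ ^ 2))
    (F' := fun t (z : E n × E n) => -(‖G.lg c z.1‖ ^ 2 * Real.exp (-t * ‖G.lg c z.1‖ ^ 2)))
    (x₀ := t) (s := Metric.ball t (t / 2)) (bound := fun _ => 2 / t)
    (Metric.ball_mem_nhds t (half_pos ht))
    (Eventually.of_forall fun x => (gexp_continuous G c x).aestronglyMeasurable)
    (gexp_integrable G V c ht.le)
    (((((lgq_continuous G c).comp continuous_fst).mul
      (gexp_continuous G c t)).neg).aestronglyMeasurable)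
    (by
      refine Eventually.of_forall fun z x hx => ?_
      have hx' : t / 2 ≤ x := by
        have h1 : |x - t| < t / 2 := by simpa [Real.dist_eq] using hx
        have h2 := (abs_lt.1 h1).1
        linarith
      obtain ⟨q, hq⟩ : ∃ q, q = ‖G.lg c z.1‖ ^ 2 := ⟨_, rfl⟩
      have hq0 : 0 ≤ q := hq ▸ sq_nonneg _
      rw [norm_neg, ← hq, Real.norm_of_nonneg (mul_nonneg hq0 (Real.exp_pos _).le)]
      have h3 : x * q ≤ Real.exp (x * q) := by
        have := Real.add_one_le_exp (x * q)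
        linarith
      have hx0 : 0 < x := by linarith
      have h4 : q * Real.exp (-x * q) ≤ 1 / x := by
        rw [neg_mul, Real.exp_neg, ← div_eq_mul_inv, div_le_div_iff₀ (Real.exp_pos _) hx0]
        linarith
      refine h4.trans ?_
      rw [div_le_div_iff₀ hx0 ht]
      linarith)
    (integrable_const _)
    (by
      refine Eventually.of_forall fun z x _ => ?_
      have h1 : HasDerivAt (fun x : ℝ => -x * ‖G.lg c z.1‖ ^ 2) (-(‖G.lg c z.1‖ ^ 2)) x := by
        have h0 := ((hasDerivAt_id x).fun_neg).mul_const (‖G.lg c z.1‖ ^ 2)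
        simpa using h0
      refine h1.exp.congr_deriv ?_
      ring)
  have h2 := hmain.2
  rw [integral_neg] at h2
  exact h2

/-- the Gaussian test function -/
theorem gpsi_smooth (c : E n) (t : ℝ) :
    ContDiff ℝ ∞ fun x => Real.exp (-t * ‖G.lg c x‖ ^ 2) :=
  Real.contDiff_exp.comp (contDiff_const.mul ((G.lg_smooth_right c).norm_sq ℝ))

/-- the gradient of the Gaussian -/
theorem D_gpsi (c : E n) (t : ℝ) (x : E n) :
    End.D G.A (fun x => Real.exp (-t * ‖G.lg c x‖ ^ 2)) x =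
      (-2 * t * Real.exp (-t * ‖G.lg c x‖ ^ 2)) • End.D G.A (FG G 0 c) x := by
  have e : (fun x => Real.exp (-t * ‖G.lg c x‖ ^ 2)) =
      fun x => (fun s : ℝ => Real.exp (-2 * t * s)) (FG G 0 c x) := by
    funext y
    simp only [FG_zero_eq]
    congr 1
    ring
  have h1 : HasDerivAt (fun s : ℝ => Real.exp (-2 * t * s))
      (-2 * t * Real.exp (-t * ‖G.lg c x‖ ^ 2)) (FG G 0 c x) := by
    have h2 : HasDerivAt (fun s : ℝ => -2 * t * s) (-2 * t) (FG G 0 c x) := by
      simpa using (hasDerivAt_id (FG G 0 c x)).const_mul (-2 * t)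
    refine h2.exp.congr_deriv ?_
    rw [FG_zero_eq, mul_comm]
    congr 2
    ring
  rw [e]
  exact End.D_comp h1 (((End.FG_smooth_right G 0 c).differentiable (by simp)) x)

/-- the stationarity integrand of the Gaussian -/
theorem dF_gpsi (H : ℝ) (c : E n) (t : ℝ) (z : E n × E n) :
    dF G 0 H c (fun x => Real.exp (-t * ‖G.lg c x‖ ^ 2)) z =
      Real.exp (-t * ‖G.lg c z.1‖ ^ 2) * (H * inner ℝ (End.D G.A (FG G 0 c) z.1) z.2 -
        ((n : ℝ) - 1) + 2 * t * (‖G.lg c z.1‖ ^ 2 -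
          inner ℝ (End.D G.A (FG G 0 c) z.1) z.2 ^ 2)) := by
  have h1 : ‖End.D G.A (FG G 0 c) z.1‖ ^ 2 = ‖G.lg c z.1‖ ^ 2 := by
    rw [End.norm_D_FG, FG_zero_eq]
    ring
  unfold dF Gam
  rw [D_gpsi, real_inner_smul_left, real_inner_smul_left, real_inner_self_eq_norm_sq, h1]
  ring

variable {G}

/-- Gaussian differential inequality -/
theorem gauss_ineq {o : E n} {ρ H : ℝ} {V : Measure (E n × E n)} [IsFiniteMeasure V]
    (hV : V (KS G o ρ)ᶜ = 0) {c : E n}
    (hst : ∀ ψ : E n → ℝ, ContDiff ℝ ∞ ψ → (∀ x, 0 ≤ ψ x) → 0 ≤ ∫ z, dF G 0 H c ψ z ∂V)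
    {t : ℝ} (ht : 0 < t) :
    ((n : ℝ) - 1) * gL G V c t -
      2 * t * ∫ z, ‖G.lg c z.1‖ ^ 2 * Real.exp (-t * ‖G.lg c z.1‖ ^ 2) ∂V ≤
      H ^ 2 / (8 * t) * gL G V c t := by
  have h0 := hst _ (gpsi_smooth G c t) fun x => (Real.exp_pos _).le
  simp only [dF_gpsi] at h0
  have hq : Continuous fun z : E n × E n => ‖G.lg c z.1‖ ^ 2 :=
    (lgq_continuous G c).comp continuous_fst
  have he := gexp_continuous G c t
  have hb : Continuous fun z : E n × E n => inner ℝ (End.D G.A (FG G 0 c) z.1) z.2 :=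
    ((D_FG_continuous G 0 c).comp continuous_fst).inner continuous_snd
  have i1 : Integrable (fun z : E n × E n => Real.exp (-t * ‖G.lg c z.1‖ ^ 2) *
      (H * inner ℝ (End.D G.A (FG G 0 c) z.1) z.2 -
        ((n : ℝ) - 1) + 2 * t * (‖G.lg c z.1‖ ^ 2 -
          inner ℝ (End.D G.A (FG G 0 c) z.1) z.2 ^ 2))) V := by
    refine integrable_of_supp G hV ?_
    fun_prop
  have i2 : Integrable (fun z : E n × E n => Real.exp (-t * ‖G.lg c z.1‖ ^ 2) *
      (H ^ 2 / (8 * t) - ((n : ℝ) - 1)) + 2 * t * (‖G.lg c z.1‖ ^ 2 *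
        Real.exp (-t * ‖G.lg c z.1‖ ^ 2))) V := by
    refine integrable_of_supp G hV ?_
    fun_prop
  have h1 := integral_mono i1 i2 fun z => by
    obtain ⟨b, hb'⟩ : ∃ b : ℝ, b = inner ℝ (End.D G.A (FG G 0 c) z.1) z.2 := ⟨_, rfl⟩
    obtain ⟨p, hp⟩ : ∃ p : ℝ, p = Real.exp (-t * ‖G.lg c z.1‖ ^ 2) := ⟨_, rfl⟩
    have hp0 : 0 < p := hp ▸ Real.exp_pos _
    simp only [← hb', ← hp]
    have h2 : H * b - 2 * t * b ^ 2 ≤ H ^ 2 / (8 * t) := by
      rw [le_div_iff₀ (by positivity)]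
      nlinarith [sq_nonneg (H - 4 * t * b)]
    have h3 := mul_le_mul_of_nonneg_left h2 hp0.le
    linarith
  have i3 : Integrable (fun z : E n × E n => Real.exp (-t * ‖G.lg c z.1‖ ^ 2) *
      (H ^ 2 / (8 * t) - ((n : ℝ) - 1))) V := integrable_of_supp G hV (by fun_prop)
  have i4 : Integrable (fun z : E n × E n => 2 * t * (‖G.lg c z.1‖ ^ 2 *
        Real.exp (-t * ‖G.lg c z.1‖ ^ 2))) V := integrable_of_supp G hV (by fun_prop)
  rw [integral_add i3 i4, integral_mul_const, integral_const_mul] at h1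
  have h4 := h0.trans h1
  have e : ∫ z, Real.exp (-t * ‖G.lg c z.1‖ ^ 2) ∂V = gL G V c t := rfl
  rw [e] at h4
  linarith

/-- **Gaussian monotonicity**: `I(t) exp (H² / (16 t))` is nonincreasing. -/
theorem gauss_mono {o : E n} {ρ H : ℝ} {V : Measure (E n × E n)} [IsFiniteMeasure V]
    (hV : V (KS G o ρ)ᶜ = 0) {c : E n}
    (hst : ∀ ψ : E n → ℝ, ContDiff ℝ ∞ ψ → (∀ x, 0 ≤ ψ x) → 0 ≤ ∫ z, dF G 0 H c ψ z ∂V) :
    AntitoneOn (fun t => gI G V c t * Real.exp (H ^ 2 / (16 * t))) (Ioi 0) := by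
  have hpi := Real.pi_pos
  have hder : ∀ t : ℝ, 0 < t → HasDerivAt (fun t => gI G V c t * Real.exp (H ^ 2 / (16 * t)))
      ((t / Real.pi) ^ (((n : ℝ) - 1) / 2) * Real.exp (H ^ 2 / (16 * t)) / (2 * t) *
        (((n : ℝ) - 1) * gL G V c t -
          2 * t * (∫ z, ‖G.lg c z.1‖ ^ 2 * Real.exp (-t * ‖G.lg c z.1‖ ^ 2) ∂V) -
          H ^ 2 / (8 * t) * gL G V c t)) t := by
    intro t ht
    have htp : 0 < t / Real.pi := by positivity
    have e1 : HasDerivAt (fun s : ℝ => (s / Real.pi) ^ (((n : ℝ) - 1) / 2))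
        ((((n : ℝ) - 1) / 2) * (t / Real.pi) ^ (((n : ℝ) - 1) / 2 - 1) * (1 / Real.pi)) t := by
      have h0 : HasDerivAt (fun s : ℝ => s / Real.pi) (1 / Real.pi) t :=
        (hasDerivAt_id t).div_const Real.pi
      refine (h0.rpow_const (p := ((n : ℝ) - 1) / 2) (Or.inl htp.ne')).congr_deriv ?_
      ring
    have e4 : (((n : ℝ) - 1) / 2) * (t / Real.pi) ^ (((n : ℝ) - 1) / 2 - 1) * (1 / Real.pi) =
        (((n : ℝ) - 1) / (2 * t)) * (t / Real.pi) ^ (((n : ℝ) - 1) / 2) := by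
      rw [Real.rpow_sub_one htp.ne']
      field_simp
    rw [e4] at e1
    have e2 := hasDerivAt_gL G V c ht
    have e3 : HasDerivAt (fun t : ℝ => Real.exp (H ^ 2 / (16 * t)))
        (Real.exp (H ^ 2 / (16 * t)) * (-(H ^ 2) / (16 * t ^ 2))) t := by
      have h1 : HasDerivAt (fun t : ℝ => H ^ 2 / (16 * t)) (-(H ^ 2) / (16 * t ^ 2)) t := by
        have h2 := (hasDerivAt_const t (H ^ 2)).fun_div
          ((hasDerivAt_id t).const_mul (16 : ℝ)) (by simp; exact ht.ne')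
        refine h2.congr_deriv ?_
        simp only [id, zero_mul, mul_one, zero_sub]
        field_simp
      exact h1.exp
    have e5 := (e1.fun_mul e2).fun_mul e3
    refine e5.congr_deriv ?_
    field_simp
    ring
  refine antitoneOn_of_deriv_nonpos (convex_Ioi 0)
    (fun t ht => (hder t ht).continuousAt.continuousWithinAt)
    (fun t ht => ?_) (fun t ht => ?_)
  · rw [interior_Ioi] at ht
    exact (hder t ht).differentiableAt.differentiableWithinAt
  · rw [interior_Ioi] at ht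
    have ht0 : (0 : ℝ) < t := ht
    rw [(hder t ht).deriv]
    have h1 := gauss_ineq hV hst ht0
    refine mul_nonpos_of_nonneg_of_nonpos ?_ (by linarith)
    positivity

theorem gI_continuous (V : Measure (E n × E n)) [IsFiniteMeasure V] {t : ℝ} (ht : 0 ≤ t) :
    Continuous fun c => gI G V c t := by
  refine Continuous.mul continuous_const ?_
  exact continuous_of_dominated (bound := fun _ => (1 : ℝ))
    (fun c => (gexp_continuous G c t).aestronglyMeasurable)
    (fun c => Eventually.of_forall fun z => exp_lgq_le G ht c z) (integrable_const _)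
    (Eventually.of_forall fun z =>
      Real.continuous_exp.comp ((lgq_continuous_left G z.1).const_mul (-t)))

/-- lower bound of the Gaussian integrals at a point of the support -/
theorem gauss_lower {o : E n} {ρ H : ℝ} {V : Measure (E n × E n)} [IsFiniteMeasure V]
    (hV : V (KS G o ρ)ᶜ = 0)
    (hst : ∀ c, ‖G.lg o c‖ ≤ ρ → ∀ ψ : E n → ℝ, ContDiff ℝ ∞ ψ → (∀ x, 0 ≤ ψ x) →
      0 ≤ ∫ z, dF G 0 H c ψ z ∂V) {p : E n}
    (hd : ∀ e > 0, ∀ T : ℝ, ∃ c, ‖G.lg o c‖ ≤ ρ ∧ ‖G.lg p c‖ < e ∧ ∃ t ≥ T, 0 < t ∧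
      1 - e ≤ (t / Real.pi) ^ (((n : ℝ) - 1) / 2) *
        ∫ z, Real.exp (-t * ‖G.lg c z.1‖ ^ 2) ∂V) {t : ℝ} (ht : 0 < t) :
    Real.exp (-(H ^ 2 / (16 * t))) ≤ gI G V p t := by
  refine le_of_forall_pos_le_add fun δ hδ => ?_
  have hc1 : Continuous fun v => gI G V (G.ex p v) t :=
    (gI_continuous V ht.le).comp (G.ex_smooth.continuous.comp
      (continuous_const.prodMk continuous_id))
  have hc2 : gI G V (G.ex p 0) t = gI G V p t := by rw [G.ex_zero]
  obtain ⟨e₁, he₁, h1⟩ := Metric.continuous_iff.1 hc1 0 (δ / 2) (half_pos hδ)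
  obtain ⟨e, he⟩ : ∃ e, e = min e₁ (δ / 2) := ⟨_, rfl⟩
  have he0 : 0 < e := by rw [he]; exact lt_min he₁ (half_pos hδ)
  obtain ⟨c, hc, hpc, s, hs, hs0, h2⟩ := hd e he0 t
  have h3 : gI G V c t < gI G V p t + δ / 2 := by
    have h4 := h1 (G.lg p c) (by
      rw [dist_zero_right]
      exact hpc.trans_le (he ▸ min_le_left _ _))
    rw [G.ex_lg, hc2, Real.dist_eq] at h4
    have := (abs_lt.1 h4).2
    linarith
  have h5 := gauss_mono hV (hst c hc) ht hs0 hs
  simp only at h5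
  have h6 : 1 - e ≤ gI G V c s := h2
  have h7 : (1 : ℝ) ≤ Real.exp (H ^ 2 / (16 * s)) := Real.one_le_exp (by positivity)
  have h8 : 0 ≤ gI G V c s := mul_nonneg (by positivity) (gL_nonneg G V c s)
  have h9 : 1 - e ≤ gI G V c t * Real.exp (H ^ 2 / (16 * t)) := by
    nlinarith
  have h10 : Real.exp (-(H ^ 2 / (16 * t))) ≤ 1 := Real.exp_le_one_iff.2 (by
    have : 0 ≤ H ^ 2 / (16 * t) := by positivity
    linarith)
  have h11 : 0 < Real.exp (-(H ^ 2 / (16 * t))) := Real.exp_pos _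
  have h12 : Real.exp (-(H ^ 2 / (16 * t))) * Real.exp (H ^ 2 / (16 * t)) = 1 := by
    rw [← Real.exp_add]
    simp
  have h13 := mul_le_mul_of_nonneg_left h9 h11.le
  have h14 : Real.exp (-(H ^ 2 / (16 * t))) * (gI G V c t * Real.exp (H ^ 2 / (16 * t))) =
      gI G V c t := by
    calc _ = gI G V c t * (Real.exp (-(H ^ 2 / (16 * t))) * Real.exp (H ^ 2 / (16 * t))) := by
          ring
      _ = _ := by rw [h12, mul_one]
  rw [h14] at h13
  have h15 : e ≤ δ / 2 := he ▸ min_le_right _ _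
  nlinarith

/-- comparison of the kernels -/
theorem exp_FG_lower {k a s₀ : ℝ} (ha : 0 ≤ a)
    (h : ∀ s, 0 ≤ s → s ≤ s₀ → ff k s ≤ a * (s / 2)) {t : ℝ} (ht : 0 ≤ t) (c x : E n) :
    Real.exp (-(t * a / 2) * ‖G.lg c x‖ ^ 2) - Real.exp (-(t * a / 2) * s₀) ≤
      Real.exp (-(t * FG G k c x)) := by
  rcases le_or_gt (‖G.lg c x‖ ^ 2) s₀ with h1 | h1
  · have h2 := h _ (sq_nonneg _) h1
    have h3 : Real.exp (-(t * a / 2) * ‖G.lg c x‖ ^ 2) ≤ Real.exp (-(t * FG G k c x)) := by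
      apply Real.exp_le_exp.2
      have h4 : t * FG G k c x ≤ t * (a * (‖G.lg c x‖ ^ 2 / 2)) :=
        mul_le_mul_of_nonneg_left h2 ht
      linarith
    have := Real.exp_pos (-(t * a / 2) * s₀)
    linarith
  · have h3 : Real.exp (-(t * a / 2) * ‖G.lg c x‖ ^ 2) ≤ Real.exp (-(t * a / 2) * s₀) := by
      apply Real.exp_le_exp.2
      have h4 : t * a / 2 * s₀ ≤ t * a / 2 * ‖G.lg c x‖ ^ 2 :=
        mul_le_mul_of_nonneg_left h1.le (by positivity)
      linarith
    have := Real.exp_pos (-(t * FG G k c x))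
    linarith

/-- `ff k s ≤ a s / 2` for small `s`, `a > 1` -/
theorem ff_le (k : ℝ) {a : ℝ} (ha : 1 < a) :
    ∃ s₀ > 0, ∀ s, 0 ≤ s → s ≤ s₀ → ff k s ≤ a * (s / 2) := by
  have h1 : ContinuousAt (fun s : ℝ => chi k (s / 4) ^ 2) 0 := by
    refine ContinuousAt.pow ?_ 2
    exact ((End.chi_smooth k).continuous.comp (continuous_id.div_const 4)).continuousAt
  have h2 : (fun s : ℝ => chi k (s / 4) ^ 2) 0 < a := by
    simp only [zero_div, End.chi_zero, one_pow]
    exact ha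
  obtain ⟨s₁, hs₁, h3⟩ := Metric.eventually_nhds_iff.1 (h1.eventually_lt_const h2)
  refine ⟨s₁ / 2, half_pos hs₁, fun s hs hs' => ?_⟩
  have h4 := h3 (y := s) (by
    rw [Real.dist_eq, sub_zero, abs_of_nonneg hs]
    linarith)
  unfold ff
  have h5 : s / 2 * chi k (s / 4) ^ 2 ≤ s / 2 * a := mul_le_mul_of_nonneg_left h4.le (by linarith)
  linarith

variable (G)

/-- **The density field.** -/
theorem dens_field_of (hn : 2 ≤ n) {k : ℝ} (hk : 0 ≤ k) {o : E n} {ρ H : ℝ}
    (_hρ : 0 < ρ) (_hH : 0 ≤ H) {V : Measure (E n × E n)} [IsFiniteMeasure V] (hV : V (KS G o ρ)ᶜ = 0)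
    (hst : ∀ c, ‖G.lg o c‖ ≤ ρ → ∀ ψ : E n → ℝ, ContDiff ℝ ∞ ψ → (∀ x, 0 ≤ ψ x) →
      0 ≤ ∫ z, dF G 0 H c ψ z ∂V)
    (hd : ∀ x, (∀ e > 0, 0 < V {z | ‖G.lg x z.1‖ < e}) → ∀ e > 0, ∀ T : ℝ,
      ∃ c, ‖G.lg o c‖ ≤ ρ ∧ ‖G.lg x c‖ < e ∧ ∃ t ≥ T, 0 < t ∧
        1 - e ≤ (t / Real.pi) ^ (((n : ℝ) - 1) / 2) *
          ∫ z, Real.exp (-t * ‖G.lg c z.1‖ ^ 2) ∂V) :
    ∀ p, (∀ e > 0, 0 < V {z | FG G k p z.1 < e}) → ∀ e > 0, ∃ ε₀ > 0, ∀ ε, 0 < ε → ε < ε₀ →
      sg ((n : ℝ) - 1) - e ≤ ∫ z, bub (k ^ 2) (FG G k p) ε z.1 ^ ((n : ℝ) - 1) ∂V := by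
  intro p hp
  have hn' : (2 : ℝ) ≤ n := by exact_mod_cast hn
  have hm : (0 : ℝ) < (n : ℝ) - 1 := by linarith
  obtain ⟨m, hmd⟩ : ∃ m : ℝ, m = (n : ℝ) - 1 := ⟨_, rfl⟩
  -- the support
  have hp' : ∀ e > 0, 0 < V {z | ‖G.lg p z.1‖ < e} := by
    intro e he
    refine (hp (e ^ 2 / 2) (by positivity)).trans_le (measure_mono fun z hz => ?_)
    have h1 : FG G k p z.1 < e ^ 2 / 2 := hz
    have h2 : ‖G.lg p z.1‖ ^ 2 / 2 ≤ FG G k p z.1 := by
      unfold FG ff
      have h3 : 1 ≤ chi k ((‖G.lg p z.1‖ / 2) ^ 2) := End.one_le_chi hk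
      have e1 : (‖G.lg p z.1‖ / 2) ^ 2 = ‖G.lg p z.1‖ ^ 2 / 4 := by ring
      rw [e1] at h3
      have h4 : 1 ≤ chi k (‖G.lg p z.1‖ ^ 2 / 4) ^ 2 := one_le_pow₀ h3
      have h5 : 0 ≤ ‖G.lg p z.1‖ ^ 2 / 2 := by positivity
      nlinarith
    exact lt_of_pow_lt_pow_left₀ 2 he.le (by linarith)
  have hlow : ∀ t : ℝ, 0 < t → Real.exp (-(H ^ 2 / (16 * t))) ≤ gI G V p t :=
    fun t ht => gauss_lower hV hst (hd p hp') ht
  have hfin : ∀ e > 0, ∃ t₀ > 0, ∀ t ≥ t₀,
      1 - e ≤ (t / (2 * Real.pi)) ^ (m / 2) * ∫ z, Real.exp (-(t * FG G k p z.1)) ∂V := by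
    intro e he
    -- choice of `a`
    obtain ⟨a, ha1, ha⟩ : ∃ a : ℝ, 1 < a ∧ 1 - e < a ^ (-(m / 2)) := by
      have h1 : ContinuousAt (fun a : ℝ => a ^ (-(m / 2))) 1 :=
        Real.continuousAt_rpow_const _ _ (Or.inl one_ne_zero)
      have h2 : 1 - e < (fun a : ℝ => a ^ (-(m / 2))) 1 := by
        simp only [Real.one_rpow]
        linarith
      obtain ⟨δ, hδ, h3⟩ := Metric.eventually_nhds_iff.1 (h1.eventually_const_lt h2)
      refine ⟨1 + δ / 2, by linarith, h3 ?_⟩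
      rw [Real.dist_eq]
      have : (1 : ℝ) + δ / 2 - 1 = δ / 2 := by ring
      rw [this, abs_of_pos (by linarith)]
      linarith
    have ha0 : 0 < a := by linarith
    obtain ⟨s₀, hs₀, hff⟩ := ff_le k ha1
    -- limit
    have t1 : Tendsto (fun t : ℝ => a ^ (-(m / 2)) * Real.exp (-(H ^ 2 / (16 * (t * a / 2)))) -
        (t / (2 * Real.pi)) ^ (m / 2) * Real.exp (-(t * a / 2) * s₀) * V.real univ) atTop
        (𝓝 (a ^ (-(m / 2)) * 1 - 0)) := by
      refine Tendsto.sub (Tendsto.const_mul _ ?_) ?_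
      · have h1 : Tendsto (fun t : ℝ => -(H ^ 2 / (16 * (t * a / 2)))) atTop (𝓝 (-0)) := by
          refine Tendsto.neg ?_
          refine Tendsto.div_atTop tendsto_const_nhds ?_
          refine Tendsto.const_mul_atTop (by norm_num) ?_
          exact (tendsto_id.atTop_mul_const ha0).atTop_div_const (by norm_num)
        have h2 := (Real.continuous_exp.tendsto (-0 : ℝ)).comp h1
        rw [neg_zero, Real.exp_zero] at h2
        exact h2
      · have h1 : Tendsto (fun t : ℝ => t ^ (m / 2) * Real.exp (-(a * s₀ / 2) * t)) atTop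
            (𝓝 0) := tendsto_rpow_mul_exp_neg_mul_atTop_nhds_zero (m / 2) (a * s₀ / 2)
              (by positivity)
        have h2 := h1.const_mul ((2 * Real.pi) ^ (m / 2))⁻¹
        have h3 := h2.mul_const (V.real univ)
        rw [mul_zero, zero_mul] at h3
        refine h3.congr' ?_
        filter_upwards [eventually_ge_atTop (0 : ℝ)] with t ht
        rw [Real.div_rpow ht (by positivity)]
        have e1 : -(a * s₀ / 2) * t = -(t * a / 2) * s₀ := by ring
        rw [e1]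
        ring
    rw [mul_one, sub_zero] at t1
    obtain ⟨t₀, ht₀⟩ := eventually_atTop.1 (t1.eventually_const_lt ha)
    refine ⟨max t₀ 1, lt_of_lt_of_le one_pos (le_max_right _ _), fun t ht => ?_⟩
    have htp : 0 < t := lt_of_lt_of_le one_pos ((le_max_right _ _).trans ht)
    have h1 := ht₀ t ((le_max_left _ _).trans ht)
    refine h1.le.trans ?_
    have hta : 0 < t * a / 2 := by positivity
    have h2 := hlow _ hta
    have hFm : Continuous fun z : E n × E n => Real.exp (-(t * FG G k p z.1)) :=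
      Real.continuous_exp.comp
        ((((End.FG_smooth_right G k p).continuous.comp continuous_fst).const_mul t).neg)
    have h3 : gL G V p (t * a / 2) - Real.exp (-(t * a / 2) * s₀) * V.real univ ≤
        ∫ z, Real.exp (-(t * FG G k p z.1)) ∂V := by
      have i1 := gexp_integrable G V p hta.le
      have i2 : Integrable (fun _ : E n × E n => Real.exp (-(t * a / 2) * s₀)) V :=
        integrable_const _
      have h4 := integral_mono (i1.sub i2) (integrable_of_supp G hV hFm) fun z =>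
        exp_FG_lower (G := G) ha0.le hff htp.le p z.1
      simp only [Pi.sub_apply] at h4
      rw [integral_sub i1 i2, integral_const, smul_eq_mul] at h4
      unfold gL
      linarith
    have h5 : 0 ≤ (t / (2 * Real.pi)) ^ (m / 2) := by positivity
    have h6 := mul_le_mul_of_nonneg_left h3 h5
    refine le_trans ?_ h6
    have e1 : (t / (2 * Real.pi)) ^ (m / 2) * gL G V p (t * a / 2) =
        a ^ (-(m / 2)) * gI G V p (t * a / 2) := by
      unfold gI
      rw [← hmd]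
      have e2 : t * a / 2 / Real.pi = a * (t / (2 * Real.pi)) := by
        field_simp
      rw [e2, Real.mul_rpow ha0.le (by positivity), Real.rpow_neg ha0.le]
      have : a ^ (m / 2) ≠ 0 := (Real.rpow_pos_of_pos ha0 _).ne'
      field_simp
    rw [mul_sub, e1]
    have h7 := mul_le_mul_of_nonneg_left h2 (Real.rpow_nonneg ha0.le (-(m / 2)))
    linarith
  have hm' : 0 < m := by rw [hmd]; exact hm
  have hres := End.dens_field V (F := FG G k)
    (fun q => (End.FG_smooth_right G k q).continuous.measurable)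
    (fun q x => End.FG_nonneg G k q x) (k ^ 2) hm' p hfin
  rw [hmd] at hres
  exact hres


end Vale.Agent.P219.SA
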