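import Vale.Agent.P219.CHH.ToGeoH
import Vale.Agent.P219.CHH.CoScale
import Vale.Agent.P219.CH.CoFinal
import Vale.Agent.P219.TPH.BridgeH
import Vale.Agent.P219.TPR.RigDomain
import Vale.Agent.P219.SA.Func

/-! # The isoperimetric inequality from the functional inequality -/

open MeasureTheory Set Filter Topology
open scoped ENNReal ContDiff

noncomputable section

namespace Vale.Agent.P219.CH

variable {n : ℕ} {M : RiemMetric n} {e : Fin n → E n → E n}

/-- `vp h ≤ vol {h = 1} + vol {0 < h < 1}`. -/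
theorem gl_vp_le (G : TP.Geo n) (hn : 2 ≤ n) {h : E n → ℝ} (hh1 : ContDiff ℝ 1 h)
    (hcs : HasCompactSupport h) (h01 : ∀ x, 0 ≤ h x ∧ h x ≤ 1) :
    G.vp h ≤ G.vol.real {x | h x = 1} + G.vol.real {x | 0 < h x ∧ h x < 1} := by
  have hp0 : (0 : ℝ) < (n : ℝ) / (n - 1) := by
    have : (2 : ℝ) ≤ n := by exact_mod_cast hn
    exact div_pos (by linarith) (by linarith)
  have hm1 : MeasurableSet {x | h x = 1} :=
    (isClosed_eq hh1.continuous continuous_const).measurableSet
  have hm2 : MeasurableSet {x | 0 < h x ∧ h x < 1} :=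
    ((isOpen_lt continuous_const hh1.continuous).inter
      (isOpen_lt hh1.continuous continuous_const)).measurableSet
  have hK : G.vol (tsupport h) < ⊤ := hcs.isCompact.measure_lt_top
  have hf1 : G.vol {x | h x = 1} ≠ ⊤ := by
    refine ((measure_mono fun x hx => ?_).trans_lt hK).ne
    refine subset_tsupport h ?_
    have : h x = 1 := hx
    rw [Function.mem_support, this]
    exact one_ne_zero
  have hf2 : G.vol {x | 0 < h x ∧ h x < 1} ≠ ⊤ := by
    refine ((measure_mono fun x hx => ?_).trans_lt hK).ne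
    exact subset_tsupport h (Function.mem_support.2 hx.1.ne')
  unfold TP.Geo.vp
  rw [← integral_indicator_one hm1, ← integral_indicator_one hm2, ← integral_add]
  · refine integral_mono_of_nonneg (Eventually.of_forall fun x => ?_) ?_
      (Eventually.of_forall fun x => ?_)
    · exact Real.rpow_nonneg (h01 x).1 _
    · exact ((integrable_indicator_iff hm1).2 (integrableOn_const hf1)).add
        ((integrable_indicator_iff hm2).2 (integrableOn_const hf2))
    · obtain ⟨h0, h1⟩ := h01 x
      rcases h0.eq_or_lt with h0 | h0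
      · simp only [← h0, Real.zero_rpow hp0.ne']
        exact add_nonneg (indicator_nonneg (fun _ _ => zero_le_one) _)
          (indicator_nonneg (fun _ _ => zero_le_one) _)
      · rcases h1.eq_or_lt with h1 | h1
        · have : x ∈ {x | h x = 1} := h1
          simp only [indicator_of_mem this, h1, Real.one_rpow, Pi.one_apply]
          exact le_add_of_nonneg_right (indicator_nonneg (fun _ _ => zero_le_one) _)
        · have : x ∈ {x | 0 < h x ∧ h x < 1} := ⟨h0, h1⟩
          simp only [indicator_of_mem this, Pi.one_apply]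
          refine le_add_of_nonneg_of_le (indicator_nonneg (fun _ _ => zero_le_one) _) ?_
          exact Real.rpow_le_one h0.le h1.le hp0.le
  · exact (integrable_indicator_iff hm1).2 (integrableOn_const hf1)
  · exact (integrable_indicator_iff hm2).2 (integrableOn_const hf2)

/-- The isoperimetric inequality from the functional inequality. -/
theorem gl_isop (hn : 2 ≤ n) {k κ : ℝ} (hVM : ∀ r, modelVol n κ r = TPH.VR n k r)
    (hAM : ∀ r, modelArea n κ r = TPH.AR n k r) (FI : TPH.FuncIso n k)
    (he : TriangularFrame M e) (hs0 : SecLE M 0) (F : GFlow M.g)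
    (hcurv : TPH.MonoSn (toGeo M e he hs0 F) k) : IsoperimetricIneq M κ := by
  have hn1 : 1 ≤ n := by omega
  refine isop_of_liminf M e he κ hn fun D r A hr hV hA => ?_
  have hV0 : 0 ≤ modelVol n κ r := by
    rw [← hV]; exact integral_nonneg fun x => (volDensity_gt M e he x).le
  have hVr : riemVol M D.carrier = ENNReal.ofReal (modelVol n κ r) := by
    rw [riemVol_eq M e he, hV]
  obtain ⟨hvp, hlay⟩ := feps_vol M e he hs0 F hn D hV0 hVr
  set G := toGeo M e he hs0 F with hG
  have hε : ∀ k : ℕ, 0 < 1 / ((k : ℝ) + 1) := fun k => by positivity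
  -- perimeter
  have hper : ∀ δ > 0, ∀ᶠ k : ℕ in atTop, G.per (Feps D (1 / (k + 1))) ≤ A + δ := by
    intro δ hδ
    filter_upwards [rd_seq.eventually (hA δ hδ)] with k hk
    unfold TP.Geo.per
    rw [hG, integral_vol he hs0 F]
    simp only [norm_D_eq he hs0 F]
    exact hk
  -- it suffices to treat smaller radii
  have hmain : ∀ r' : ℝ, 0 ≤ r' → r' < r → modelArea n κ r' ≤ A := by
    intro r' hr' hlt
    refine le_of_forall_pos_le_add fun δ hδ => ?_
    have hlt' : modelVol n κ r' < modelVol n κ r :=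
      modelVol_strictMonoOn n hn1 κ hr' hr.le hlt
    set η : ℝ := (modelVol n κ r - modelVol n κ r') / 2 with hη
    have hη0 : 0 < η := by rw [hη]; linarith
    obtain ⟨k, hk1, hk2, hk3⟩ := ((hper δ hδ).and ((hlay η hη0).and
      (hvp.eventually (lt_mem_nhds (show modelVol n κ r - η < modelVol n κ r by
        linarith))))).exists
    set h : E n → ℝ := Feps D (1 / ((k : ℝ) + 1)) with hh
    have hh1 : ContDiff ℝ 1 h := (Feps_smooth D _).of_le (by simp)
    have hcs : HasCompactSupport h := Feps_compact D (hε k)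
    have h01 : ∀ x, 0 ≤ h x ∧ h x ≤ 1 := fun x => ⟨Feps_nonneg D _ x, Feps_le_one D _ x⟩
    refine le_trans ?_ hk1
    rw [hAM]
    refine FI G hcurv h hh1 hcs h01 r' hr' ?_
    rw [← hVM]
    have hvp1 := gl_vp_le G hn hh1 hcs h01
    linarith
  have hcont := (modelArea_continuous n κ).continuousAt (x := r)
  refine le_of_tendsto (hcont.tendsto.mono_left (nhdsWithin_le_nhds (s := Iio r))) ?_
  filter_upwards [Ioo_mem_nhdsLT hr] with r' hr'
  exact hmain r' hr'.1.le hr'.2

theorem gl_sn_one (r : ℝ) : sn √(-(-1)) r = TPH.sn 1 r := by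
  unfold sn TPH.sn
  rw [neg_neg, Real.sqrt_one]

theorem gl_sn_zero (r : ℝ) : sn √(-0) r = TPH.sn 0 r := by
  unfold sn TPH.sn
  rw [neg_zero, Real.sqrt_zero]

/-- `κ = -1`. -/
theorem gl_isop_one (hn : 2 ≤ n) (FI : TPH.FuncIso n 1)
    (M : RiemMetric n) (hc : GeoComplete M.g) (hs : SecLE M (-1)) : IsoperimetricIneq M (-1) := by
  obtain ⟨e, he⟩ := exists_triangularFrame M
  obtain ⟨F⟩ := exists_gflow (isMetricOn M) hc
  have hn1 : 1 ≤ n := by omega
  refine gl_isop hn (fun r => ?_) (fun r => ?_) FI he (secLE_zero hs) F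
    (TPH.curv_of_geoH (toGeoH M e he hs F hn)).monoSn
  · unfold modelVol TPH.VR
    rw [TP.sig_eq hn1, om_eq]
    simp only [gl_sn_one]
  · unfold modelArea TPH.AR
    rw [TP.sig_eq hn1, om_eq, gl_sn_one]

/-- `κ = 0`. -/
theorem gl_isop_zero (hn : 2 ≤ n) (FI : TPH.FuncIso n 0)
    (M : RiemMetric n) (hc : GeoComplete M.g) (hs : SecLE M 0) : IsoperimetricIneq M 0 := by
  obtain ⟨e, he⟩ := exists_triangularFrame M
  obtain ⟨F⟩ := exists_gflow (isMetricOn M) hc
  have hn1 : 1 ≤ n := by omega
  refine gl_isop hn (fun r => ?_) (fun r => ?_) FI he hs F (TPH.MonoSn.zero _)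
  · unfold modelVol TPH.VR
    rw [TP.sig_eq hn1, om_eq]
    simp only [gl_sn_zero]
  · unfold modelArea TPH.AR
    rw [TP.sig_eq hn1, om_eq, gl_sn_zero]

end Vale.Agent.P219.CH

namespace Vale.Agent.P219.Co

/-- The isoperimetric inequality for `Sec ≤ κ`, all `κ ≤ 0`, from the functional inequality. -/
theorem isop_of_func {n : ℕ} (hn : 2 ≤ n) (FI : ∀ k : ℝ, 0 ≤ k → TPH.FuncIso n k)
    (M : RiemMetric n) (hc : GeodesicallyComplete M) {κ : ℝ} (hκ : κ ≤ 0) (hs : SecLE M κ) :
    IsoperimetricIneq M κ := by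
  rcases hκ.eq_or_lt with rfl | hκ
  · obtain ⟨e, he⟩ := CH.exists_triangularFrame (old M)
    have h := CH.gl_isop_zero hn (FI 0 le_rfl) (old M) (geoComplete_old hc)
      (secLE_old_of_frame ⟨e, he⟩ hs)
    exact isop_old (frame_of_old he) h
  · refine isop_of_scale (by omega) hκ ?_
    set M' := scale M (-κ) (neg_pos.2 hκ) with hM'
    obtain ⟨e, he⟩ := CH.exists_triangularFrame (old M')
    have h := CH.gl_isop_one hn (FI 1 zero_le_one) (old M') (geoComplete_old (scale_complete _ hc))
      (secLE_old_of_frame ⟨e, he⟩ (scale_sec hκ hs))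
    exact isop_old (frame_of_old he) h

end Vale.Agent.P219.Co
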