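import Vale.Agent.P219.SR.RigSeq

/-! # The generalized Cartan-Hadamard conjecture from the functional statements -/

namespace Vale.Agent.P219.Co

/-- The isoperimetric inequality and its equality case, from the functional inequality and the
rigidity of limits of minimising sequences. -/
theorem conc {n : ℕ} (hn : 2 ≤ n) (FI : ∀ k : ℝ, 0 ≤ k → TPH.FuncIso n k)
    (LR : ∀ k : ℝ, 0 ≤ k → SA.LimRig n k) {K : ℝ} (hK : K ≤ 0)
    (M : RiemMetric n) (hM : GeodesicallyComplete M) (hs : SecLE M K) :
    IsoperimetricIneq M K ∧
      ∀ (D : SmoothDomain n) (r : ℝ), 0 ≤ r →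
        riemVol M D.carrier = ENNReal.ofReal (modelVol n K r) →
        riemArea M D = ENNReal.ofReal (modelArea n K r) → IsometricToBallK M K D r :=
  ⟨isop_of_func hn FI M hM hK hs, fun D r hr hV hA =>
    equality_limRig hn FI LR M hM hK hs D r hr hV hA⟩

end Vale.Agent.P219.Co
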