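import Vale.Agent.P219.TPH.SliceH
import Vale.Agent.P219.TP.Ibp
import Vale.Agent.P219.TP.PerContract

/-! # P219, all dimensions: a crude isoperimetric inequality in a ball -/

open MeasureTheory Set Metric Filter Topology
open scoped ENNReal NNReal ContDiff

namespace Vale.Agent.P219.SA

open Vale.Agent.P219.TP Vale.Agent.P219.TPH

variable {n : ℕ} (G : Geo n)

/-- The Euclidean differential is bounded by the gradient in the frame, on compact sets. -/
theorem fderiv_le_D {K : Set (E n)} (hK : IsCompact K) :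
    ∃ C : ℝ, 0 ≤ C ∧ ∀ (h : E n → ℝ), ∀ x ∈ K, ∀ v : E n,
      |fderiv ℝ h x v| ≤ C * ‖G.D h x‖ * ‖v‖ := by
  obtain ⟨C, hC⟩ : ∃ C : ℝ, ∀ z ∈ K ×ˢ sphere (0 : E n) 1, ‖‖G.A z.1 z.2‖⁻¹‖ ≤ C := by
    refine (hK.prod (isCompact_sphere (0 : E n) 1)).exists_bound_of_continuousOn ?_
    have h1 : Continuous fun z : E n × E n => ‖G.A z.1 z.2‖ :=
      (((G.A_smooth.continuous.comp continuous_fst).clm_apply continuous_snd)).norm
    refine h1.continuousOn.inv₀ fun z hz => ?_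
    have hz2 : z.2 ≠ 0 := by
      intro h0
      have := hz.2
      rw [h0] at this
      simp at this
    rw [norm_ne_zero_iff]
    intro h0
    exact hz2 (G.A_injective z.1 (by rw [h0, map_zero]))
  refine ⟨max C 0, le_max_right _ _, fun h x hx v => ?_⟩
  obtain ⟨u, rfl⟩ : ∃ u, G.A x u = v :=
    (LinearMap.injective_iff_surjective (f := (G.A x : E n →ₗ[ℝ] E n))).1
      (G.A_injective x) v
  rw [← G.inner_D h x u]
  rcases eq_or_ne u 0 with rfl | hu
  · simp
  have hun : 0 < ‖u‖ := norm_pos_iff.2 hu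
  have h1 := hC (x, ‖u‖⁻¹ • u) ⟨hx, by
    rw [mem_sphere_zero_iff_norm, norm_smul, norm_inv, norm_norm, inv_mul_cancel₀ hun.ne']⟩
  have h1' : ‖u‖ * ‖G.A x u‖⁻¹ ≤ C := by
    have e1 : ‖‖G.A x (‖u‖⁻¹ • u)‖⁻¹‖ = ‖u‖ * ‖G.A x u‖⁻¹ := by
      simp [map_smul, norm_smul, mul_comm]
    rw [← e1]
    exact h1
  have hAu : 0 < ‖G.A x u‖ := by
    rw [norm_pos_iff]
    intro h0
    exact hu (G.A_injective x (by rw [h0, map_zero]))
  have h2 : ‖u‖ ≤ max C 0 * ‖G.A x u‖ := by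
    have h3 : ‖u‖ * ‖G.A x u‖⁻¹ ≤ max C 0 := h1'.trans (le_max_left _ _)
    calc ‖u‖ = ‖u‖ * ‖G.A x u‖⁻¹ * ‖G.A x u‖ := by field_simp
      _ ≤ max C 0 * ‖G.A x u‖ := mul_le_mul_of_nonneg_right h3 hAu.le
  calc |inner ℝ (G.D h x) u| ≤ ‖G.D h x‖ * ‖u‖ := abs_real_inner_le_norm _ _
    _ ≤ ‖G.D h x‖ * (max C 0 * ‖G.A x u‖) := by gcongr
    _ = max C 0 * ‖G.D h x‖ * ‖G.A x u‖ := by ring

theorem crude_pt {K : Set (E n)} {C L W : ℝ} (hC : 0 ≤ C)
    (hCb : ∀ (h : E n → ℝ), ∀ x ∈ K, ∀ v : E n, |fderiv ℝ h x v| ≤ C * ‖G.D h x‖ * ‖v‖)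
    (hL : ∀ x ∈ K, ‖x‖ ≤ L) (hW : ∀ x ∈ K, ‖(G.w x)⁻¹‖ ≤ W) (h : E n → ℝ) {x : E n}
    (hx : x ∈ K) : -(fderiv ℝ h x x) ≤ C * max L 0 * max W 0 * (G.w x * ‖G.D h x‖) := by
  have h1 := hCb h x hx x
  have h2 : ‖x‖ ≤ max L 0 := (hL x hx).trans (le_max_left _ _)
  have h3 : (G.w x)⁻¹ ≤ max W 0 := (le_abs_self _).trans ((hW x hx).trans (le_max_left _ _))
  have h4 : 1 ≤ max W 0 * G.w x := by
    have := mul_le_mul_of_nonneg_right h3 (G.w_pos x).le
    rwa [inv_mul_cancel₀ (G.w_pos x).ne'] at this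
  have h5 : 0 ≤ C * max L 0 * ‖G.D h x‖ := by
    have : 0 ≤ max L 0 := le_max_right _ _
    positivity
  calc -(fderiv ℝ h x x) ≤ |fderiv ℝ h x x| := neg_le_abs _
    _ ≤ C * ‖G.D h x‖ * ‖x‖ := h1
    _ ≤ C * ‖G.D h x‖ * max L 0 := by gcongr
    _ = C * max L 0 * ‖G.D h x‖ * 1 := by ring
    _ ≤ C * max L 0 * ‖G.D h x‖ * (max W 0 * G.w x) := mul_le_mul_of_nonneg_left h4 h5
    _ = C * max L 0 * max W 0 * (G.w x * ‖G.D h x‖) := by ring

theorem integral_le_per (hn : 1 ≤ n) (o : E n) (ρ : ℝ) :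
    ∃ C : ℝ, 0 ≤ C ∧ ∀ h, G.Cls o ρ h → ∫ x, h x ≤ C * G.per h := by
  obtain ⟨C, hC, hCb⟩ := fderiv_le_D G (G.isCompact_gball o ρ)
  obtain ⟨L, hL⟩ := (G.isCompact_gball o ρ).exists_bound_of_continuousOn
    (f := fun x : E n => x) continuous_id.continuousOn
  obtain ⟨W, hW⟩ := (G.isCompact_gball o ρ).exists_bound_of_continuousOn
    (f := fun x : E n => (G.w x)⁻¹)
    (G.w_smooth.continuous.continuousOn.inv₀ fun x _ => (G.w_pos x).ne')
  have hL0 : 0 ≤ max L 0 := le_max_right _ _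
  have hW0 : 0 ≤ max W 0 := le_max_right _ _
  refine ⟨C * max L 0 * max W 0, by positivity, fun h hh => ?_⟩
  have hcs := Cls.hasCompactSupport G hh
  have h1 := ibp_euclid (X := fun x : E n => x) contDiff_id hh.smooth hcs
  have h2 : ∀ x : E n, ∑ i, fderiv ℝ (fun x : E n => x) x (EuclideanSpace.single i 1) i =
      (n : ℝ) := by
    intro x
    simp
  simp only [h2] at h1
  rw [integral_mul_const] at h1
  have hDcont := perc_D_cont G hh.smooth
  have hD0 : ∀ x, x ∉ {x | ‖G.lg o x‖ ≤ ρ} → G.D h x = 0 := fun x hx =>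
    perc_D_of_eventually G (perc_D_zero G hh (not_le.1 hx))
  have hint : Integrable (fun x => G.w x * ‖G.D h x‖) := by
    refine (G.w_smooth.continuous.mul hDcont.norm).integrable_of_hasCompactSupport ?_
    refine HasCompactSupport.intro (G.isCompact_gball o ρ) fun x hx => ?_
    show G.w x * ‖G.D h x‖ = 0
    rw [hD0 x hx, norm_zero, mul_zero]
  have hint2 : Integrable (fun x => -(fderiv ℝ h x x)) := by
    have h3 : Continuous fun x => -(fderiv ℝ h x x) :=
      ((hh.smooth.continuous_fderiv (by simp)).clm_apply continuous_id).neg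
    refine h3.integrable_of_hasCompactSupport ?_
    refine HasCompactSupport.intro (G.isCompact_gball o ρ) fun x hx => ?_
    have h4 : h =ᶠ[𝓝 x] fun _ => 0 := perc_D_zero G hh (not_le.1 hx)
    rw [h4.fderiv_eq]
    simp
  have h4 : - ∫ x, fderiv ℝ h x x ≤ ∫ x, C * max L 0 * max W 0 * (G.w x * ‖G.D h x‖) := by
    rw [← integral_neg]
    refine integral_mono hint2 (hint.const_mul _) fun x => ?_
    by_cases hx : x ∈ {x | ‖G.lg o x‖ ≤ ρ}
    · exact crude_pt G hC hCb hL hW h hx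
    · have h4 : h =ᶠ[𝓝 x] fun _ => 0 := perc_D_zero G hh (not_le.1 hx)
      show -(fderiv ℝ h x x) ≤ _
      rw [h4.fderiv_eq, hD0 x hx]
      simp
  rw [integral_const_mul] at h4
  have h5 : G.per h = ∫ x, G.w x * ‖G.D h x‖ := by
    unfold Geo.per
    rw [ibp_integral_vol]
  rw [← h5, ← h1] at h4
  have h6 : 0 ≤ ∫ x, h x := integral_nonneg hh.nonneg
  have h7 : (1 : ℝ) ≤ n := by exact_mod_cast hn
  nlinarith

/-- **Crude isoperimetric inequality.** -/
theorem V1_le_per (hn : 1 ≤ n) (o : E n) (ρ : ℝ) :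
    ∃ C : ℝ, 0 < C ∧ ∀ h, G.Cls o ρ h → V1 G h ≤ C * G.per h := by
  obtain ⟨C, hC, hCb⟩ := integral_le_per G hn o ρ
  obtain ⟨W, hW⟩ := (G.isCompact_gball o ρ).exists_bound_of_continuousOn
    (f := G.w) G.w_smooth.continuous.continuousOn
  have hW0 : 0 ≤ max W 0 := le_max_right _ _
  refine ⟨max W 0 * C + 1, by positivity, fun h hh => ?_⟩
  have hcs := Cls.hasCompactSupport G hh
  have hint : Integrable h := hh.smooth.continuous.integrable_of_hasCompactSupport hcs
  have hmeas : MeasurableSet {x | h x = 1} :=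
    (isClosed_singleton.preimage hh.smooth.continuous).measurableSet
  have hfin : G.vol {x | h x = 1} ≠ ⊤ := by
    refine ((measure_mono ?_).trans_lt (slice_vol_ball_lt G o ρ)).ne
    intro x hx
    apply hh.supp x
    rw [show h x = 1 from hx]
    exact one_ne_zero
  have h1 : V1 G h = ∫ x, G.w x * {x | h x = 1}.indicator (fun _ => (1 : ℝ)) x := by
    unfold V1
    rw [← ibp_integral_vol, integral_indicator hmeas, integral_const, smul_eq_mul, mul_one,
      measureReal_restrict_apply MeasurableSet.univ, univ_inter]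
  have h2 : V1 G h ≤ ∫ x, max W 0 * h x := by
    rw [h1]
    refine integral_mono_of_nonneg (Eventually.of_forall fun x => ?_) (hint.const_mul _)
      (Eventually.of_forall fun x => ?_)
    · exact mul_nonneg (G.w_pos x).le (indicator_nonneg (fun _ _ => zero_le_one) _)
    · show G.w x * {x | h x = 1}.indicator (fun _ => (1 : ℝ)) x ≤ max W 0 * h x
      by_cases hx : h x = 1
      · rw [indicator_of_mem (show x ∈ {x | h x = 1} from hx), hx, mul_one, mul_one]
        have h3 := hW x (hh.supp x (by rw [hx]; exact one_ne_zero))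
        exact (le_abs_self _).trans (h3.trans (le_max_left _ _))
      · rw [indicator_of_notMem (show x ∉ {x | h x = 1} from hx), mul_zero]
        exact mul_nonneg hW0 (hh.nonneg x)
  rw [integral_const_mul] at h2
  have h3 := hCb h hh
  have h4 : 0 ≤ G.per h := integral_nonneg fun _ => norm_nonneg _
  calc V1 G h ≤ max W 0 * ∫ x, h x := h2
    _ ≤ max W 0 * (C * G.per h) := mul_le_mul_of_nonneg_left h3 hW0
    _ ≤ (max W 0 * C + 1) * G.per h := by nlinarith

end Vale.Agent.P219.SA
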