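import Vale.Agent.P219.TPH.Defs
import Vale.Agent.P219.TP.PerContract

/-! # P219, all dimensions: cutting off a test function near a point -/

open MeasureTheory Set Metric Filter Topology
open scoped ENNReal ContDiff

namespace Vale.Agent.P219.TPH

open Vale.Agent.P219.TP

variable {n : ℕ}

theorem cutx_D_mul (G : Geo n) {f g : E n → ℝ} {y : E n} (hf : DifferentiableAt ℝ f y)
    (hg : DifferentiableAt ℝ g y) :
    G.D (fun z => f z * g z) y = f y • G.D g y + g y • G.D f y := by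
  unfold Geo.D
  rw [fderiv_fun_mul hf hg, ContinuousLinearMap.add_comp, map_add, ContinuousLinearMap.smul_comp,
    ContinuousLinearMap.smul_comp]
  simp

theorem cutx_D_one_sub (G : Geo n) (f : E n → ℝ) (y : E n) :
    G.D (fun z => 1 - f z) y = -G.D f y := by
  unfold Geo.D
  rw [fderiv_const_sub, ContinuousLinearMap.neg_comp, map_neg]

/-- The cut-off function. -/
noncomputable def cutx (G : Geo n) (x : E n) (r : ℝ) (y : E n) : ℝ :=
  Real.smoothTransition ((‖G.lg x y‖ ^ 2 - r ^ 2 / 4) / (3 * r ^ 2 / 4))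

theorem cutx_smooth (G : Geo n) (x : E n) (r : ℝ) : ContDiff ℝ ∞ (cutx G x r) := by
  unfold cutx
  have h1 : ContDiff ℝ ∞ fun y => G.lg x y := G.lg_smooth.comp (contDiff_const.prodMk contDiff_id)
  exact Real.smoothTransition.contDiff.comp (((h1.norm_sq ℝ).sub contDiff_const).div_const _)

theorem cutx_nonneg (G : Geo n) (x : E n) (r : ℝ) (y : E n) : 0 ≤ cutx G x r y :=
  Real.smoothTransition.nonneg _

theorem cutx_le_one (G : Geo n) (x : E n) (r : ℝ) (y : E n) : cutx G x r y ≤ 1 :=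
  Real.smoothTransition.le_one _

theorem cutx_zero (G : Geo n) (x : E n) {r : ℝ} (hr : 0 < r) {y : E n}
    (hy : ‖G.lg x y‖ ≤ r / 2) : cutx G x r y = 0 := by
  refine Real.smoothTransition.zero_of_nonpos ?_
  refine div_nonpos_of_nonpos_of_nonneg ?_ (by positivity)
  have h0 := norm_nonneg (G.lg x y)
  nlinarith

theorem cutx_one (G : Geo n) (x : E n) {r : ℝ} (hr : 0 < r) {y : E n}
    (hy : r ≤ ‖G.lg x y‖) : cutx G x r y = 1 := by
  refine Real.smoothTransition.one_of_one_le ?_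
  rw [le_div_iff₀ (by positivity)]
  nlinarith

theorem cutx_lt_of_ne (G : Geo n) (x : E n) {r : ℝ} (hr : 0 < r) {y : E n}
    (hy : cutx G x r y ≠ 1) : ‖G.lg x y‖ < r := by
  by_contra h
  exact hy (cutx_one G x hr (not_lt.1 h))

theorem cutx_D_zero (G : Geo n) (x : E n) {r : ℝ} (hr : 0 < r) {y : E n}
    (hy : r < ‖G.lg x y‖) : G.D (cutx G x r) y = 0 := by
  have hc : Continuous fun z => ‖G.lg x z‖ :=
    (G.lg_smooth.continuous.comp (continuous_const.prodMk continuous_id)).norm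
  have h1 : cutx G x r =ᶠ[nhds y] fun _ => 1 := by
    filter_upwards [(isOpen_lt continuous_const hc).mem_nhds hy] with z hz
    exact cutx_one G x hr (le_of_lt hz)
  have h2 : fderiv ℝ (cutx G x r) y = 0 := by
    rw [h1.fderiv_eq, fderiv_fun_const]
    rfl
  rw [Geo.D, h2, ContinuousLinearMap.zero_comp, map_zero]

/-- Perimeter estimate for a function whose gradient is controlled. -/
theorem cutx_per (G : Geo n) {o : E n} {ρ : ℝ} {x : E n} {r C : ℝ}
    (hD : ∀ y, ‖G.lg x y‖ ≤ r → ‖G.D (cutx G x r) y‖ ≤ C)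
    (hD0 : ∀ y, r < ‖G.lg x y‖ → G.D (cutx G x r) y = 0) {h h' a : E n → ℝ}
    (hh : G.Cls o ρ h) (hh' : G.Cls o ρ h') (ha : Continuous a) (ha0 : ∀ y, 0 ≤ a y)
    (hle : ∀ y, ‖G.D h' y‖ ≤ cutx G x r y * ‖G.D h y‖ + a y * ‖G.D (cutx G x r) y‖) :
    G.per h' ≤ ∫ y, cutx G x r y * ‖G.D h y‖ ∂G.vol +
      C * ∫ y in {y | ‖G.lg x y‖ ≤ r}, a y ∂G.vol := by
  have hSm : MeasurableSet {y | ‖G.lg x y‖ ≤ r} := (G.isCompact_gball x r).measurableSet
  have hi1 : Integrable (fun y => cutx G x r y * ‖G.D h y‖) G.vol := by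
    refine ((cutx_smooth G x r).continuous.mul
      (perc_D_cont G hh.smooth).norm).integrable_of_hasCompactSupport ?_
    refine HasCompactSupport.intro (G.isCompact_gball o ρ) fun y hy => ?_
    show cutx G x r y * ‖G.D h y‖ = 0
    rw [perc_D_of_eventually G (perc_D_zero G hh (not_le.mp hy)), norm_zero, mul_zero]
  have hi2 : IntegrableOn a {y | ‖G.lg x y‖ ≤ r} G.vol :=
    ha.continuousOn.integrableOn_compact (G.isCompact_gball x r)
  have hi3 : Integrable ({y | ‖G.lg x y‖ ≤ r}.indicator fun y => C * a y) G.vol :=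
    (integrable_indicator_iff hSm).2 (hi2.const_mul C)
  unfold Geo.per
  calc ∫ y, ‖G.D h' y‖ ∂G.vol
      ≤ ∫ y, (cutx G x r y * ‖G.D h y‖ + {y | ‖G.lg x y‖ ≤ r}.indicator (fun y => C * a y) y)
          ∂G.vol := by
        refine integral_mono (perc_D_integrable G hh') (hi1.add hi3) fun y => ?_
        refine (hle y).trans ?_
        have : a y * ‖G.D (cutx G x r) y‖ ≤
            {y | ‖G.lg x y‖ ≤ r}.indicator (fun y => C * a y) y := by
          by_cases hy : ‖G.lg x y‖ ≤ r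
          · rw [indicator_of_mem (show y ∈ {y | ‖G.lg x y‖ ≤ r} from hy), mul_comm C]
            exact mul_le_mul_of_nonneg_left (hD y hy) (ha0 y)
          · rw [indicator_of_notMem (show y ∉ {y | ‖G.lg x y‖ ≤ r} from hy),
              hD0 y (not_le.1 hy), norm_zero, mul_zero]
        exact add_le_add le_rfl this
    _ = ∫ y, cutx G x r y * ‖G.D h y‖ ∂G.vol +
          C * ∫ y in {y | ‖G.lg x y‖ ≤ r}, a y ∂G.vol := by
        rw [integral_add hi1 hi3, integral_indicator hSm, integral_const_mul]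

/-- Finiteness of the volume of `{h = 1}`. -/
theorem cutx_fin (G : Geo n) {o : E n} {ρ : ℝ} {h : E n → ℝ} (hh : G.Cls o ρ h) :
    G.vol {y | h y = 1} ≠ ⊤ := by
  refine ne_top_of_le_ne_top (G.isCompact_gball o ρ).measure_lt_top.ne (measure_mono ?_)
  intro y hy
  refine hh.supp y ?_
  rw [show h y = 1 from hy]
  exact one_ne_zero

theorem cutx_mul_eq_one {a b : ℝ} (ha : 0 ≤ a) (ha1 : a ≤ 1) (hb : 0 ≤ b) (hb1 : b ≤ 1)
    (h : a * b = 1) : a = 1 ∧ b = 1 := by
  constructor <;> nlinarith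

/-- Markov: the volume removed by the cut-off. -/
theorem cutx_markov (G : Geo n) {o : E n} {ρ : ℝ} {x : E n} {r : ℝ} {h : E n → ℝ}
    (hh : G.Cls o ρ h) :
    G.vol.real {y | h y = 1 ∧ ‖G.lg x y‖ ≤ r} ≤ ∫ y in {y | ‖G.lg x y‖ ≤ r}, h y ∂G.vol := by
  have hSm : MeasurableSet {y | ‖G.lg x y‖ ≤ r} := (G.isCompact_gball x r).measurableSet
  have hSf : G.vol {y | ‖G.lg x y‖ ≤ r} ≠ ⊤ := (G.isCompact_gball x r).measure_lt_top.ne
  have hm : MeasurableSet {y | h y = 1} :=
    (isClosed_singleton (x := (1 : ℝ)).preimage hh.smooth.continuous).measurableSet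
  have hi : IntegrableOn h {y | ‖G.lg x y‖ ≤ r} G.vol :=
    hh.smooth.continuous.continuousOn.integrableOn_compact (G.isCompact_gball x r)
  have e1 : {y | h y = 1 ∧ ‖G.lg x y‖ ≤ r} = {y | h y = 1} ∩ {y | ‖G.lg x y‖ ≤ r} := rfl
  have e2 : G.vol.real {y | h y = 1 ∧ ‖G.lg x y‖ ≤ r} =
      ∫ y in {y | ‖G.lg x y‖ ≤ r}, {y | h y = 1}.indicator (fun _ => (1 : ℝ)) y ∂G.vol := by
    rw [setIntegral_indicator hm, setIntegral_const, smul_eq_mul, mul_one, e1, inter_comm]
  rw [e2]
  have : IsFiniteMeasure (G.vol.restrict {y | ‖G.lg x y‖ ≤ r}) :=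
    ⟨by rw [Measure.restrict_apply_univ]; exact hSf.lt_top⟩
  refine integral_mono ((integrable_const (1 : ℝ)).indicator hm) hi fun y => ?_
  by_cases hy : y ∈ {y | h y = 1}
  · rw [indicator_of_mem hy, show h y = 1 from hy]
  · rw [indicator_of_notMem hy]
    exact hh.nonneg y

/-- **Cut-off competitors.** -/
theorem cut_exists (G : Geo n) (o x : E n) (ρ : ℝ) {r : ℝ} (hr : 0 < r) :
    ∃ χ : E n → ℝ, Continuous χ ∧ (∀ y, 0 ≤ χ y) ∧ (∀ y, χ y ≤ 1) ∧
      (∀ y, ‖G.lg x y‖ ≤ r / 2 → χ y = 0) ∧ ∃ C : ℝ, 0 ≤ C ∧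
      (∀ h, G.Cls o ρ h → ∃ h', G.Cls o ρ h' ∧
        G.per h' ≤ ∫ y, χ y * ‖G.D h y‖ ∂G.vol +
          C * ∫ y in {y | ‖G.lg x y‖ ≤ r}, h y ∂G.vol ∧
        V1 G h - ∫ y in {y | ‖G.lg x y‖ ≤ r}, h y ∂G.vol ≤ V1 G h' ∧ V1 G h' ≤ V1 G h) ∧
      ((∀ y, ‖G.lg x y‖ ≤ r → ‖G.lg o y‖ ≤ ρ) → ∀ h, G.Cls o ρ h → ∃ h', G.Cls o ρ h' ∧
        G.per h' ≤ ∫ y, χ y * ‖G.D h y‖ ∂G.vol +
          C * ∫ y in {y | ‖G.lg x y‖ ≤ r}, (1 - h y) ∂G.vol ∧ V1 G h ≤ V1 G h') := by
  have hχs := cutx_smooth G x r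
  have hχ1 : ContDiff ℝ 1 (cutx G x r) := hχs.of_le (by exact_mod_cast le_top)
  have hχd : ∀ y, DifferentiableAt ℝ (cutx G x r) y := fun y => hχ1.differentiable (by simp) y
  obtain ⟨C₀, hC₀⟩ := (G.isCompact_gball x r).exists_bound_of_continuousOn
    (perc_D_cont G hχ1).continuousOn
  have hD : ∀ y, ‖G.lg x y‖ ≤ r → ‖G.D (cutx G x r) y‖ ≤ max C₀ 0 := fun y hy =>
    (hC₀ y hy).trans (le_max_left _ _)
  have hD0 : ∀ y, r < ‖G.lg x y‖ → G.D (cutx G x r) y = 0 := fun y hy => cutx_D_zero G x hr hy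
  refine ⟨cutx G x r, hχs.continuous, cutx_nonneg G x r, cutx_le_one G x r,
    fun y hy => cutx_zero G x hr hy, max C₀ 0, le_max_right _ _, fun h hh => ?_,
    fun hball h hh => ?_⟩
  · have hhd : ∀ y, DifferentiableAt ℝ h y := fun y => hh.smooth.differentiable (by simp) y
    have hcls : G.Cls o ρ (fun y => cutx G x r y * h y) :=
      { smooth := hχ1.mul hh.smooth
        nonneg := fun y => mul_nonneg (cutx_nonneg G x r y) (hh.nonneg y)
        le_one := fun y => mul_le_one₀ (cutx_le_one G x r y) (hh.nonneg y) (hh.le_one y)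
        supp := fun y hy => hh.supp y fun h0 => hy (by rw [h0, mul_zero]) }
    refine ⟨_, hcls, ?_, ?_, ?_⟩
    · refine cutx_per G hD hD0 hh hcls hh.smooth.continuous hh.nonneg
        fun y => ?_
      rw [cutx_D_mul G (hχd y) (hhd y)]
      refine (norm_add_le _ _).trans (le_of_eq ?_)
      rw [norm_smul, norm_smul, Real.norm_of_nonneg (cutx_nonneg G x r y),
        Real.norm_of_nonneg (hh.nonneg y)]
    · have hsub : {y | h y = 1} ⊆ {y | cutx G x r y * h y = 1} ∪
          {y | h y = 1 ∧ ‖G.lg x y‖ ≤ r} := by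
        intro y hy
        by_cases hc : cutx G x r y = 1
        · left
          show cutx G x r y * h y = 1
          rw [hc, show h y = 1 from hy, mul_one]
        · right
          exact ⟨hy, (cutx_lt_of_ne G x hr hc).le⟩
      have hfin : G.vol ({y | cutx G x r y * h y = 1} ∪ {y | h y = 1 ∧ ‖G.lg x y‖ ≤ r}) ≠ ⊤ := by
        refine (measure_union_lt_top (cutx_fin G hcls).lt_top ?_).ne
        refine lt_of_le_of_lt (measure_mono ?_) (cutx_fin G hh).lt_top
        exact fun y hy => hy.1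
      have h1 : V1 G h ≤ V1 G (fun y => cutx G x r y * h y) +
          G.vol.real {y | h y = 1 ∧ ‖G.lg x y‖ ≤ r} :=
        (measureReal_mono hsub hfin).trans (measureReal_union_le _ _)
      have h2 := cutx_markov G (x := x) (r := r) hh
      linarith
    · refine measureReal_mono (fun y hy => ?_) (cutx_fin G hh)
      exact (cutx_mul_eq_one (cutx_nonneg G x r y) (cutx_le_one G x r y) (hh.nonneg y)
        (hh.le_one y) hy).2
  · have hh1 : ContDiff ℝ 1 fun y => 1 - h y := contDiff_const.sub hh.smooth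
    have hhd : ∀ y, DifferentiableAt ℝ (fun y => 1 - h y) y := fun y =>
      hh1.differentiable (by simp) y
    have hle1 : ∀ y, cutx G x r y * (1 - h y) ≤ 1 := fun y =>
      mul_le_one₀ (cutx_le_one G x r y) (by linarith [hh.le_one y]) (by linarith [hh.nonneg y])
    have hge0 : ∀ y, 0 ≤ cutx G x r y * (1 - h y) := fun y =>
      mul_nonneg (cutx_nonneg G x r y) (by linarith [hh.le_one y])
    have hcls : G.Cls o ρ (fun y => 1 - cutx G x r y * (1 - h y)) :=
      { smooth := contDiff_const.sub (hχ1.mul hh1)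
        nonneg := fun y => by linarith [hle1 y]
        le_one := fun y => by linarith [hge0 y]
        supp := fun y hy => by
          by_contra hy2
          refine hy ?_
          have h0 : h y = 0 := by
            by_contra h0
            exact hy2 (hh.supp y h0)
          have h1 : cutx G x r y = 1 := by
            by_contra h1
            exact hy2 (hball y (cutx_lt_of_ne G x hr h1).le)
          show 1 - cutx G x r y * (1 - h y) = 0
          rw [h0, h1]
          norm_num }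
    refine ⟨_, hcls, ?_, ?_⟩
    · refine cutx_per G (a := fun y => 1 - h y) hD hD0 hh hcls hh1.continuous
        (fun y => by linarith [hh.le_one y]) fun y => ?_
      rw [cutx_D_one_sub G (fun y => cutx G x r y * (1 - h y)) y, norm_neg,
        cutx_D_mul G (hχd y) (hhd y), cutx_D_one_sub G h y]
      refine (norm_add_le _ _).trans (le_of_eq ?_)
      rw [norm_smul, norm_smul, norm_neg, Real.norm_of_nonneg (cutx_nonneg G x r y),
        Real.norm_of_nonneg (show 0 ≤ 1 - h y by linarith [hh.le_one y])]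
    · refine measureReal_mono (fun y hy => ?_) (cutx_fin G hcls)
      show 1 - cutx G x r y * (1 - h y) = 1
      rw [show h y = 1 from hy]
      norm_num

end Vale.Agent.P219.TPH
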