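import Vale.Agent.P219.SA.DensE
import Vale.Agent.P219.SA.DensCut

/-! # P219, density at least one near every point of the support -/

open MeasureTheory Set Metric Filter Topology
open scoped ENNReal ContDiff

namespace Vale.Agent.P219.SA

open Vale.Agent.P219.TP Vale.Agent.P219.TPH
open Vale.Agent.P219.End (KS nrm isCompact_KS)

variable {n : ℕ} (G : Geo n)

/-- The final contradiction. -/
theorem cut_contra {o : E n} {ρ : ℝ} {I : ℝ → ℝ} (hIcont : ContinuousOn I (Ici 0))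
    {J Vs : ℝ} {U : Ultrafilter ℕ} {h : ℕ → E n → ℝ}
    (hm : MinSeq G o ρ I J Vs U h) {V : Measure (E n × E n)}
    (hV : IsLim G o ρ U h V) {x : E n} {r : ℝ} (hx : 0 < V {z | ‖G.lg x z.1‖ < r})
    {χ : E n → ℝ} (hχc : Continuous χ) (hχ1 : ∀ y, χ y ≤ 1)
    (hχr : ∀ y, ‖G.lg x y‖ ≤ r → χ y = 0) {C : ℝ} {ι : ℕ → ℝ} (hι : Tendsto ι U (𝓝 0))
    {h' : ℕ → E n → ℝ} (hc' : ∀ j, G.Cls o ρ (h' j))
    (hp' : ∀ j, G.per (h' j) ≤ ∫ y, χ y * ‖G.D (h j) y‖ ∂G.vol + C * ι j)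
    (hI' : ∃ a : ℕ → ℝ, Tendsto a U (𝓝 Vs) ∧ (∀ j, 0 ≤ a j) ∧ ∀ j, I (a j) ≤ I (V1 G (h' j))) :
    False := by
  obtain ⟨a, ha, ha0, haI⟩ := hI'
  have := hV.fin
  have hVs : 0 ≤ Vs := ge_of_tendsto' hm.vol fun j => measureReal_nonneg
  have hcont : ∀ b : ℕ → ℝ, Tendsto b U (𝓝 Vs) → (∀ j, 0 ≤ b j) →
      Tendsto (fun j => I (b j)) U (𝓝 (I Vs)) := by
    intro b hb hb0
    have h1 : Tendsto b U (𝓝[Ici 0] Vs) :=
      tendsto_nhdsWithin_iff.2 ⟨hb, .of_forall hb0⟩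
    exact (hIcont Vs hVs).tendsto.comp h1
  have t1 := hcont a ha ha0
  have t2 := hcont _ hm.vol fun j => measureReal_nonneg
  have t3 : J = V.real univ - I Vs := tendsto_nhds_unique hm.lim (hV.mass.sub t2)
  have hχz : Continuous fun z : E n × E n => χ z.1 := hχc.comp continuous_fst
  have t4 : Tendsto (fun j => ∫ y, χ y * ‖G.D (h j) y‖ ∂G.vol) U (𝓝 (∫ z, χ z.1 ∂V)) :=
    hV.lim (fun z => χ z.1) hχz.continuousOn
  have t5 : J ≤ (∫ z, χ z.1 ∂V) + C * 0 - I Vs := by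
    refine ge_of_tendsto' ((t4.add (hι.const_mul C)).sub t1) fun j => ?_
    have h1 := hm.inf _ (hc' j)
    have h2 := hp' j
    have h3 := haI j
    linarith
  rw [mul_zero, add_zero] at t5
  have t6 : V.real univ ≤ ∫ z, χ z.1 ∂V := by linarith
  -- positivity
  have hK := isCompact_KS G o ρ
  have hKm : MeasurableSet (KS G o ρ) := hK.measurableSet
  have hrest : V.restrict (KS G o ρ) = V := by
    rw [Measure.restrict_eq_self_of_ae_mem]
    exact (measure_eq_zero_iff_ae_notMem.1 hV.supp).mono fun z hz => not_notMem.1 hz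
  have i1 : Integrable (fun z : E n × E n => χ z.1) V := by
    rw [← hrest]
    exact hχz.continuousOn.integrableOn_compact hK
  have i2 : Integrable (fun z : E n × E n => 1 - χ z.1) V := (integrable_const 1).sub i1
  have e1 : ∫ z, (1 - χ z.1) ∂V = V.real univ - ∫ z, χ z.1 ∂V := by
    rw [integral_sub (integrable_const 1) i1]
    simp
  have e2 : ∫ z, (1 - χ z.1) ∂V ≤ 0 := by rw [e1]; linarith
  have e3 : 0 < ∫ z, (1 - χ z.1) ∂V := by
    have i3 : (0 : E n × E n → ℝ) ≤ fun z : E n × E n => 1 - χ z.1 :=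
      fun z => sub_nonneg.2 (hχ1 z.1)
    rw [integral_pos_iff_support_of_nonneg i3 i2]
    refine lt_of_lt_of_le hx (measure_mono fun z hz => ?_)
    rw [Function.mem_support, hχr z.1 (le_of_lt hz)]
    norm_num
  linarith

/-- **Density at least one, in the limit, at points near a point of the support.** -/
theorem dens_lim (hn : 1 ≤ n) {o : E n} {ρ : ℝ} {I : ℝ → ℝ} (hImono : MonotoneOn I (Ici 0))
    (hIcont : ContinuousOn I (Ici 0)) {J Vs : ℝ} {U : Ultrafilter ℕ} {h : ℕ → E n → ℝ}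
    (hm : MinSeq G o ρ I J Vs U h) {V : Measure (E n × E n)} (hV : IsLim G o ρ U h V) (x : E n)
    (hx : ∀ e > 0, 0 < V {z | ‖G.lg x z.1‖ < e}) {e : ℝ} (he : 0 < e) (T : ℝ) :
    ∃ c, ‖G.lg o c‖ ≤ ρ ∧ ‖G.lg x c‖ < e ∧ ∃ t ≥ T, 0 < t ∧
      1 - e ≤ (t / Real.pi) ^ (((n : ℝ) - 1) / 2) * ∫ z, Real.exp (-t * ‖G.lg c z.1‖ ^ 2) ∂V := by
  by_contra hcon
  push Not at hcon
  -- `x` is in the ball
  have hxK : ‖G.lg o x‖ ≤ ρ := by
    by_contra h1
    rw [not_le] at h1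
    have h2 := hx (‖G.lg o x‖ - ρ) (by linarith)
    have h3 : V {z | ‖G.lg x z.1‖ < ‖G.lg o x‖ - ρ} ≤ V (KS G o ρ)ᶜ := by
      refine measure_mono fun z hz hzK => ?_
      have h4 : ‖G.lg x z.1‖ < ‖G.lg o x‖ - ρ := hz
      have h5 : ‖G.lg o z.1‖ ≤ ρ := hzK.1
      have h6 := G.lg_nonexp o x z.1
      have h7 := norm_sub_norm_le (G.lg o x) (G.lg o z.1)
      linarith
    rw [hV.supp] at h3
    exact absurd h2 (not_lt.2 h3)
  obtain ⟨T₁, hT₁⟩ : ∃ T₁, T₁ = max T 1 := ⟨_, rfl⟩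
  have hT₁p : 0 < T₁ := by rw [hT₁]; exact lt_of_lt_of_le one_pos (le_max_right _ _)
  have hT₁T : T ≤ T₁ := hT₁ ▸ le_max_left _ _
  -- radius
  obtain ⟨e', he', hee', hint⟩ : ∃ e' > 0, e' < e ∧ (‖G.lg o x‖ < ρ → ∀ y, ‖G.lg x y‖ ≤ e' →
      ‖G.lg o y‖ ≤ ρ) := by
    by_cases hlt : ‖G.lg o x‖ < ρ
    · refine ⟨min (e / 2) (ρ - ‖G.lg o x‖), lt_min (by positivity) (by linarith),
        (min_le_left _ _).trans_lt (by linarith), fun _ y hy => ?_⟩
      have h1 := lg_tri G o x (G.lg x y)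
      rw [G.ex_lg] at h1
      have h2 := hy.trans (min_le_right _ _)
      linarith
    · exact ⟨e / 2, by positivity, by linarith, fun h1 => absurd h1 hlt⟩
  obtain ⟨p, hpc, hp⟩ := exists_pl G hm.cls U
  have hD : IsPreconnected (nbd G o x ρ e' ×ˢ Ici (Real.log T₁)) :=
    (nbd_preconnected G hxK he'.le).prod isPreconnected_Ici
  have hlog : ∀ t ≥ T₁, Real.log T₁ ≤ Real.log t := fun t ht => Real.log_le_log hT₁p ht
  have hne : ∀ z ∈ nbd G o x ρ e' ×ˢ Ici (Real.log T₁), p z ≠ 1 / 2 := by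
    rintro ⟨c, τ⟩ ⟨hc, hτ⟩ h1
    have h2 := pl_ineq G hn hm hV hp (c, τ)
    rw [h1] at h2
    have h3 : T₁ ≤ Real.exp τ := by
      rw [← Real.exp_log hT₁p]
      exact Real.exp_le_exp.2 hτ
    have h4 := hcon c hc.1 (hc.2.trans_lt hee') (Real.exp τ) (hT₁T.trans h3) (Real.exp_pos _)
    unfold ThV at h2
    simp only at h2
    norm_num at h2
    norm_num at h4
    linarith
  obtain ⟨χ, hχc, -, hχ1, hχr, C, -, hlow, hup⟩ := cut_exists G o x ρ (show 0 < e' / 2 by positivity)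
  have hxr : 0 < V {z | ‖G.lg x z.1‖ < e' / 2 / 2} := hx _ (by positivity)
  rcases pl_sign hpc hD hne with hs | hs
  · -- case A
    have hA := caseA G hn hm hV he' (T := T₁) (fun c hc t ht ε hε => by
      have ht0 : 0 < t := lt_of_lt_of_le hT₁p ht
      have h1 := hp (c, Real.log t)
      simp only [Real.exp_log ht0] at h1
      have h2 := hs (c, Real.log t) ⟨hc, hlog t ht⟩
      exact h1.eventually (gt_mem_nhds (by linarith)))
    choose h' hc' hp' hv1 hv2 using fun j => hlow (h j) (hm.cls j)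
    refine cut_contra G hIcont hm hV hxr hχc hχ1 hχr (C := C) hA hc' hp'
      ⟨fun j => V1 G (h' j), ?_, fun j => measureReal_nonneg, fun j => le_rfl⟩
    have h1 := hm.vol.sub hA
    rw [sub_zero] at h1
    exact tendsto_of_tendsto_of_tendsto_of_le_of_le h1 hm.vol hv1 hv2
  · -- case B
    have hlt : ‖G.lg o x‖ < ρ := by
      refine lt_of_le_of_ne hxK fun hxe => ?_
      have h1 := hp (x, Real.log T₁)
      simp only [Real.exp_log hT₁p] at h1
      have h2 : p (x, Real.log T₁) ≤ 1 / 2 :=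
        le_of_tendsto' h1 fun j => pj_bdry G hn hxe (hm.cls j) hT₁p
      have h3 := hs (x, Real.log T₁)
        ⟨⟨hxK, by rw [G.lg_self, norm_zero]; exact he'.le⟩, mem_Ici.2 le_rfl⟩
      linarith
    have hB := caseB G hn hm hV he' (hint hlt) (T := T₁) (fun c hc t ht ε hε => by
      have ht0 : 0 < t := lt_of_lt_of_le hT₁p ht
      have h1 := hp (c, Real.log t)
      simp only [Real.exp_log ht0] at h1
      have h2 := hs (c, Real.log t) ⟨hc, hlog t ht⟩
      exact h1.eventually (lt_mem_nhds (by linarith)))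
    choose h' hc' hp' hv1 using fun j => hup (fun y hy => hint hlt y (by linarith)) (h j) (hm.cls j)
    exact cut_contra G hIcont hm hV hxr hχc hχ1 hχr (C := C) hB hc' hp'
      ⟨fun j => V1 G (h j), hm.vol, fun j => measureReal_nonneg,
        fun j => hImono (mem_Ici.2 measureReal_nonneg) (mem_Ici.2 measureReal_nonneg) (hv1 j)⟩

end Vale.Agent.P219.SA
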