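import Vale.Agent.P219.SB.MPgd
import Vale.Agent.P219.TPH.SliceH
import Vale.Agent.P219.TP.PerContract
import Vale.Agent.P219.TP.Ibp

/-! # P219, density: Gaussian averages in normal coordinates -/

open MeasureTheory Set Metric Filter Topology
open scoped ENNReal ContDiff

namespace Vale.Agent.P219.TPH

open Vale.Agent.P219.TP

variable {n : ℕ} (G : Geo n)

/-- Change of variables `y = ex x v`. -/
theorem integral_vol_ex (x : E n) (F : E n → ℝ) :
    ∫ y, F y ∂G.vol = ∫ v, |(G.T x v).det| * F (G.ex x v) := by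
  rw [ibp_integral_vol]
  have hinj : InjOn (G.ex x) univ := fun v _ v' _ h => by
    rw [← G.lg_ex x v, ← G.lg_ex x v', h]
  have him : G.ex x '' univ = univ := by
    rw [image_univ]
    exact Set.range_eq_univ.2 fun y => ⟨G.lg x y, G.ex_lg x y⟩
  have hd : ∀ v ∈ (univ : Set (E n)), HasFDerivWithinAt (G.ex x) (fderiv ℝ (G.ex x) v) univ v :=
    fun v _ => ((G.ex_smooth_right x).differentiable (by simp) v).hasFDerivAt.hasFDerivWithinAt
  have h := integral_image_eq_integral_abs_det_fderiv_smul volume MeasurableSet.univ hd hinj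
    (fun y => G.w y * F y)
  rw [him, Measure.restrict_univ] at h
  rw [h]
  congr 1
  funext v
  rw [smul_eq_mul, ← mul_assoc, mul_comm |_| _, G.w_J]

/-- Gaussian average of `h` at `c`. -/
noncomputable def pj (h : E n → ℝ) (c : E n) (t : ℝ) : ℝ := ∫ v, h (G.ex c v) * gd t v

/-- The Gaussian kernel. -/
noncomputable def kp (c : E n) (t : ℝ) (y : E n) : ℝ := gd t (G.lg c y) / |(G.T c (G.lg c y)).det|

theorem kp_nonneg {t : ℝ} (ht : 0 < t) (c y : E n) : 0 ≤ kp G c t y :=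
  div_nonneg (gd_nonneg ht _) (abs_nonneg _)

theorem pj_eq (h : E n → ℝ) (c : E n) (t : ℝ) : pj G h c t = ∫ y, h y * kp G c t y ∂G.vol := by
  rw [integral_vol_ex G c]
  unfold pj kp
  congr 1
  funext v
  rw [G.lg_ex]
  have h1 : |(G.T c v).det| ≠ 0 := abs_ne_zero.2 (G.det_T_ne c v)
  field_simp

theorem det_cont : Continuous fun z : E n × E n => |(G.T z.1 z.2).det| :=
  (ContinuousLinearMap.continuous_det.comp G.T_smooth.continuous).abs

theorem kp_cont : Continuous fun z : (E n × ℝ) × E n => kp G z.1.1 (Real.exp z.1.2) z.2 := by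
  unfold kp gd
  have h1 : Continuous fun z : (E n × ℝ) × E n => G.lg z.1.1 z.2 :=
    G.lg_smooth.continuous.comp
      (by fun_prop : Continuous fun z : (E n × ℝ) × E n => (z.1.1, z.2))
  have h2 : Continuous fun z : (E n × ℝ) × E n => |(G.T z.1.1 (G.lg z.1.1 z.2)).det| :=
    (det_cont G).comp ((by fun_prop : Continuous fun z : (E n × ℝ) × E n => z.1.1).prodMk h1)
  refine Continuous.div ?_ h2 fun z => abs_ne_zero.2 (G.det_T_ne _ _)
  refine Continuous.mul ?_ ?_
  · exact Continuous.rpow_const (by fun_prop) fun z => Or.inr (by positivity)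
  · have h3 : Continuous fun z : (E n × ℝ) × E n => ‖G.lg z.1.1 z.2‖ := h1.norm
    fun_prop

/-- The geodesic ball. -/
def gB (o : E n) (ρ : ℝ) : Set (E n) := {x | ‖G.lg o x‖ ≤ ρ}

theorem gB_compact (o : E n) (ρ : ℝ) : IsCompact (gB G o ρ) := G.isCompact_gball o ρ

theorem gB_meas (o : E n) (ρ : ℝ) : MeasurableSet (gB G o ρ) := (gB_compact G o ρ).measurableSet

theorem vol_gB_lt (o : E n) (ρ : ℝ) : G.vol (gB G o ρ) < ⊤ := G.vol_compact_lt_top (gB_compact G o ρ)

/-- Modulus of continuity of all Gaussian averages. -/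
theorem omega_cont (o : E n) (ρ : ℝ) (z₀ : E n × ℝ) {ε : ℝ} (hε : 0 < ε) :
    ∀ᶠ z in 𝓝 z₀, ∫ y in gB G o ρ, |kp G z.1 (Real.exp z.2) y - kp G z₀.1 (Real.exp z₀.2) y| ∂G.vol
      < ε := by
  have hk := kp_cont G
  have hc : Continuous (Function.uncurry fun (z : E n × ℝ) (y : E n) =>
      |kp G z.1 (Real.exp z.2) y - kp G z₀.1 (Real.exp z₀.2) y|) := by
    refine Continuous.abs (Continuous.sub hk ?_)
    exact hk.comp (by fun_prop : Continuous fun z : (E n × ℝ) × E n => (z₀, z.2))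
  have h1 := continuous_parametric_integral_of_continuous (μ := G.vol) hc (gB_compact G o ρ)
  have h2 := h1.tendsto z₀
  simp only [sub_self, abs_zero, integral_zero] at h2
  exact h2.eventually (gt_mem_nhds hε)

theorem meas_kp (c : E n) {t : ℝ} (ht : 0 < t) : Continuous fun y => kp G c t y := by
  have h := (kp_cont G).comp (by fun_prop : Continuous fun y : E n => ((c, Real.log t), y))
  simp only [Function.comp_def, Real.exp_log ht] at h
  exact h

theorem int_kp {h : E n → ℝ} (hm : Measurable h) (hb : ∀ x, |h x| ≤ 1) {o : E n} {ρ : ℝ}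
    (hs : ∀ x, h x ≠ 0 → ‖G.lg o x‖ ≤ ρ) (c : E n) {t : ℝ} (ht : 0 < t) :
    Integrable (fun y => h y * kp G c t y) G.vol := by
  have h1 : IntegrableOn (fun y => kp G c t y) (gB G o ρ) G.vol :=
    (meas_kp G c ht).continuousOn.integrableOn_compact (gB_compact G o ρ)
  have h2 : IntegrableOn (fun y => h y * kp G c t y) (gB G o ρ) G.vol :=
    h1.bdd_mul (c := 1) hm.aestronglyMeasurable (.of_forall fun y => by
      rw [Real.norm_eq_abs]; exact hb y)
  refine (integrableOn_iff_integrable_of_support_subset ?_).1 h2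
  intro y hy
  have : h y ≠ 0 := by
    intro h0
    exact hy (by simp [h0])
  exact hs y this

theorem pj_diff {h : E n → ℝ} (hm : Measurable h) (hb : ∀ x, |h x| ≤ 1) {o : E n} {ρ : ℝ}
    (hs : ∀ x, h x ≠ 0 → ‖G.lg o x‖ ≤ ρ) (c c' : E n) {t t' : ℝ} (ht : 0 < t) (ht' : 0 < t') :
    |pj G h c t - pj G h c' t'| ≤ ∫ y in gB G o ρ, |kp G c t y - kp G c' t' y| ∂G.vol := by
  rw [pj_eq, pj_eq, ← integral_sub (int_kp G hm hb hs c ht) (int_kp G hm hb hs c' ht')]
  have e1 : ∫ y, (h y * kp G c t y - h y * kp G c' t' y) ∂G.vol =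
      ∫ y in gB G o ρ, (h y * kp G c t y - h y * kp G c' t' y) ∂G.vol := by
    refine (setIntegral_eq_integral_of_forall_compl_eq_zero fun y hy => ?_).symm
    have : h y = 0 := by
      by_contra h0
      exact hy (hs y h0)
    simp [this]
  rw [e1]
  refine (abs_integral_le_integral_abs).trans ?_
  refine integral_mono_of_nonneg (.of_forall fun y => abs_nonneg _) ?_ (.of_forall fun y => ?_)
  · exact (((meas_kp G c ht).sub (meas_kp G c' ht')).abs).continuousOn.integrableOn_compact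
      (gB_compact G o ρ)
  · show |h y * kp G c t y - h y * kp G c' t' y| ≤ |kp G c t y - kp G c' t' y|
    rw [← mul_sub, abs_mul]
    exact mul_le_of_le_one_left (abs_nonneg _) (hb y)

/-- Bounds of the averages. -/
theorem int_pj {h : E n → ℝ} (hm : Measurable h) (hb : ∀ x, |h x| ≤ 1) (c : E n) {t : ℝ}
    (ht : 0 < t) : Integrable fun v => h (G.ex c v) * gd t v := by
  refine (integrable_gd ht).bdd_mul (c := 1) ?_ (.of_forall fun v => ?_)
  · exact (hm.comp ((G.ex_smooth_right c).continuous.measurable)).aestronglyMeasurable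
  · rw [Real.norm_eq_abs]; exact hb _

theorem pj_nonneg {h : E n → ℝ} (h0 : ∀ x, 0 ≤ h x) (c : E n) {t : ℝ} (ht : 0 < t) :
    0 ≤ pj G h c t := integral_nonneg fun v => mul_nonneg (h0 _) (gd_nonneg ht v)

theorem pj_le_one {h : E n → ℝ} (hm : Measurable h) (h0 : ∀ x, 0 ≤ h x) (h1 : ∀ x, h x ≤ 1)
    (c : E n) {t : ℝ} (ht : 0 < t) : pj G h c t ≤ 1 := by
  have hb : ∀ x, |h x| ≤ 1 := fun x => by rw [abs_of_nonneg (h0 x)]; exact h1 x
  rw [← integral_gd (n := n) ht]
  refine integral_mono (int_pj G hm hb c ht) (integrable_gd ht) fun v => ?_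
  exact mul_le_of_le_one_left (gd_nonneg ht v) (h1 _)

theorem pj_one_sub {h : E n → ℝ} (hm : Measurable h) (hb : ∀ x, |h x| ≤ 1)
    (c : E n) {t : ℝ} (ht : 0 < t) : pj G (fun x => 1 - h x) c t = 1 - pj G h c t := by
  unfold pj
  have : (fun v => (1 - h (G.ex c v)) * gd t v) = fun v => gd t v - h (G.ex c v) * gd t v := by
    funext v; ring
  rw [this, integral_sub (integrable_gd ht) (int_pj G hm hb c ht), integral_gd ht]

/-- Tail of the Gaussian. -/
theorem gd_tail {t δ : ℝ} (ht : 0 < t) :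
    ∫⁻ v in {v : E n | δ ≤ ‖v‖}, ENNReal.ofReal (gd t v) ≤
      ENNReal.ofReal ((2 : ℝ) ^ ((n : ℝ) / 2) * Real.exp (-(t / 2) * max δ 0 ^ 2)) := by
  have hpi := Real.pi_pos
  have hcm : MeasurableSet {v : E n | δ ≤ ‖v‖} := measurableSet_le measurable_const (by fun_prop)
  have h1 : ∀ v ∈ {v : E n | δ ≤ ‖v‖}, ENNReal.ofReal (gd t v) ≤
      ENNReal.ofReal ((2 : ℝ) ^ ((n : ℝ) / 2) * Real.exp (-(t / 2) * max δ 0 ^ 2)) *
        ENNReal.ofReal (gd (t / 2) v) := by
    intro v hv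
    rw [← ENNReal.ofReal_mul (by positivity)]
    refine ENNReal.ofReal_le_ofReal ?_
    unfold gd
    have e1 : (t / Real.pi) ^ ((n : ℝ) / 2) =
        (2 : ℝ) ^ ((n : ℝ) / 2) * (t / 2 / Real.pi) ^ ((n : ℝ) / 2) := by
      rw [← Real.mul_rpow (by norm_num) (by positivity)]
      congr 1
      field_simp
    have e2 : Real.exp (-t * ‖v‖ ^ 2) ≤
        Real.exp (-(t / 2) * max δ 0 ^ 2) * Real.exp (-(t / 2) * ‖v‖ ^ 2) := by
      rw [← Real.exp_add]
      refine Real.exp_le_exp.2 ?_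
      have h2 : max δ 0 ≤ ‖v‖ := max_le hv (norm_nonneg _)
      have h3 : max δ 0 ^ 2 ≤ ‖v‖ ^ 2 := pow_le_pow_left₀ (le_max_right _ _) h2 2
      nlinarith
    rw [e1]
    have h4 : 0 ≤ (2 : ℝ) ^ ((n : ℝ) / 2) * (t / 2 / Real.pi) ^ ((n : ℝ) / 2) := by positivity
    calc (2 : ℝ) ^ ((n : ℝ) / 2) * (t / 2 / Real.pi) ^ ((n : ℝ) / 2) * Real.exp (-t * ‖v‖ ^ 2)
        ≤ (2 : ℝ) ^ ((n : ℝ) / 2) * (t / 2 / Real.pi) ^ ((n : ℝ) / 2) *
          (Real.exp (-(t / 2) * max δ 0 ^ 2) * Real.exp (-(t / 2) * ‖v‖ ^ 2)) :=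
          mul_le_mul_of_nonneg_left e2 h4
      _ = _ := by ring
  refine (setLIntegral_mono ((gd_meas _).const_mul _) h1).trans ?_
  rw [lintegral_const_mul _ (gd_meas _)]
  refine mul_le_of_le_one_right' ?_
  refine (setLIntegral_le_lintegral _ _).trans ?_
  rw [← ofReal_integral_eq_lintegral_ofReal (integrable_gd (by positivity))
      (.of_forall fun v => gd_nonneg (by positivity) v), integral_gd (by positivity),
      ENNReal.ofReal_one]

theorem lintegral_gd {t : ℝ} (ht : 0 < t) : ∫⁻ v : E n, ENNReal.ofReal (gd t v) = 1 := by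
  rw [← ofReal_integral_eq_lintegral_ofReal (integrable_gd ht)
      (.of_forall fun v => gd_nonneg ht v), integral_gd ht, ENNReal.ofReal_one]

/-- For `t` large most of the Gaussian mass is close to `0`. -/
theorem gd_ball {δ : ℝ} (hδ : 0 < δ) : ∃ T : ℝ, ∀ t ≥ T, 0 < t →
    ENNReal.ofReal (1 / 2) ≤ ∫⁻ v in {v : E n | ‖v‖ < δ}, ENNReal.ofReal (gd t v) := by
  have hlim : Tendsto (fun t : ℝ => (2 : ℝ) ^ ((n : ℝ) / 2) * Real.exp (-(t / 2) * max δ 0 ^ 2))
      atTop (𝓝 0) := by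
    rw [max_eq_left hδ.le]
    have h1 : Tendsto (fun t : ℝ => Real.exp (-(t / 2) * δ ^ 2)) atTop (𝓝 0) := by
      refine Real.tendsto_exp_atBot.comp ?_
      have : (fun t : ℝ => -(t / 2) * δ ^ 2) = fun t : ℝ => -(δ ^ 2 / 2 * t) := by
        funext t; ring
      rw [this]
      exact tendsto_neg_atTop_atBot.comp (tendsto_id.const_mul_atTop (by positivity))
    simpa using h1.const_mul ((2 : ℝ) ^ ((n : ℝ) / 2))
  obtain ⟨T, hT⟩ := (hlim.eventually (gt_mem_nhds (show (0 : ℝ) < 1 / 2 by norm_num))).exists_forall_of_atTop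
  refine ⟨T, fun t htT ht => ?_⟩
  have h1 := gd_tail (n := n) (δ := δ) ht
  have h2 := hT t htT
  have h3 : ∫⁻ v in {v : E n | δ ≤ ‖v‖}, ENNReal.ofReal (gd t v) ≤ ENNReal.ofReal (1 / 2) :=
    h1.trans (ENNReal.ofReal_le_ofReal h2.le)
  have hcm : MeasurableSet {v : E n | ‖v‖ < δ} := measurableSet_lt (by fun_prop) measurable_const
  have h4 := lintegral_add_compl (μ := (volume : Measure (E n)))
    (fun v : E n => ENNReal.ofReal (gd t v)) hcm
  have h5 : {v : E n | ‖v‖ < δ}ᶜ = {v : E n | δ ≤ ‖v‖} := by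
    ext v; simp
  rw [h5, lintegral_gd ht] at h4
  by_contra hlt
  rw [not_le] at hlt
  have h6 : (∫⁻ v in {v : E n | ‖v‖ < δ}, ENNReal.ofReal (gd t v)) +
      ∫⁻ v in {v : E n | δ ≤ ‖v‖}, ENNReal.ofReal (gd t v) < ENNReal.ofReal (1 / 2) +
        ENNReal.ofReal (1 / 2) :=
    ENNReal.add_lt_add_of_lt_of_le (ne_top_of_le_ne_top ENNReal.ofReal_ne_top h3) hlt h3
  rw [h4, ← ENNReal.ofReal_add (by norm_num) (by norm_num)] at h6
  norm_num at h6

/-- Triangle inequality. -/
theorem lg_tri (x y w : E n) : ‖G.lg x (G.ex y w)‖ ≤ ‖G.lg x y‖ + ‖w‖ := by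
  have h1 := G.lg_nonexp x (G.ex y w) y
  have h2 : ‖G.lg (G.ex y w) y‖ = ‖w‖ := by
    rw [G.lg_back, norm_neg, G.norm_V]
  rw [h2] at h1
  calc ‖G.lg x (G.ex y w)‖ = ‖(G.lg x (G.ex y w) - G.lg x y) + G.lg x y‖ := by
        rw [sub_add_cancel]
    _ ≤ ‖G.lg x (G.ex y w) - G.lg x y‖ + ‖G.lg x y‖ := norm_add_le _ _
    _ ≤ _ := by linarith

/-- The `L¹` estimate (Liouville). -/
theorem l1_est {f : E n → ℝ} (hm : Measurable f) (h0 : ∀ x, 0 ≤ f x) {t δ : ℝ}
    (ht2 : ENNReal.ofReal (1 / 2) ≤ ∫⁻ v in {v : E n | ‖v‖ < δ}, ENNReal.ofReal (gd t v))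
    {S S' : Set (E n)} (hS : MeasurableSet S) (hS' : MeasurableSet S')
    (hSS : ∀ y ∈ S', ∀ w : E n, ‖w‖ < δ → G.ex y w ∈ S) :
    ENNReal.ofReal (1 / 2) * ∫⁻ y in S', ENNReal.ofReal (f y) ∂G.vol ≤
      ∫⁻ c in S, ∫⁻ v, ENNReal.ofReal (f (G.ex c v)) * ENNReal.ofReal (gd t v) ∂volume ∂G.vol := by
  have hex : Continuous fun z : E n × E n => G.ex z.1 z.2 := G.ex_smooth.continuous
  set F : E n × E n → ℝ≥0∞ := fun z => S.indicator (fun _ => 1) (G.ex z.1 z.2) *
    (ENNReal.ofReal (f z.1) * ENNReal.ofReal (gd t z.2)) with hF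
  have mF : Measurable F := by
    have m1 : Measurable fun z : E n × E n => S.indicator (fun _ => (1 : ℝ≥0∞)) (G.ex z.1 z.2) :=
      (measurable_const.indicator hS).comp hex.measurable
    have m2 : Measurable fun z : E n × E n => ENNReal.ofReal (f z.1) :=
      (hm.comp measurable_fst).ennreal_ofReal
    have m3 : Measurable fun z : E n × E n => ENNReal.ofReal (gd t z.2) :=
      (gd_meas t).comp measurable_snd
    exact m1.mul (m2.mul m3)
  have h := G.liouville mF
  have e1 : ∀ x v, F (G.ex x v, -G.V 1 x v) = S.indicator (fun _ => 1) x *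
      (ENNReal.ofReal (f (G.ex x v)) * ENNReal.ofReal (gd t v)) := by
    intro x v
    simp only [hF]
    have h1 : G.ex (G.ex x v) (-G.V 1 x v) = x := by
      rw [← G.lg_back, G.ex_lg]
    rw [h1]
    have h2 : gd t (-G.V 1 x v) = gd t v := by
      unfold gd
      rw [norm_neg, G.norm_V]
    rw [h2]
  simp only [e1] at h
  have e2 : ∫⁻ c in S, ∫⁻ v, ENNReal.ofReal (f (G.ex c v)) * ENNReal.ofReal (gd t v) ∂volume ∂G.vol
      = ∫⁻ x, ∫⁻ v, S.indicator (fun _ => 1) x *
      (ENNReal.ofReal (f (G.ex x v)) * ENNReal.ofReal (gd t v)) ∂volume ∂G.vol := by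
    rw [← lintegral_indicator hS]
    refine lintegral_congr fun x => ?_
    by_cases hx : x ∈ S
    · simp only [indicator_of_mem hx, one_mul]
    · simp only [indicator_of_notMem hx, zero_mul, lintegral_zero]
  rw [e2, h]
  rw [← lintegral_const_mul _ (hm.ennreal_ofReal), ← lintegral_indicator hS']
  refine lintegral_mono fun y => ?_
  by_cases hy : y ∈ S'
  · rw [indicator_of_mem hy]
    have h1 : ∫⁻ v in {v : E n | ‖v‖ < δ}, ENNReal.ofReal (f y) * ENNReal.ofReal (gd t v) ≤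
        ∫⁻ v, F (y, v) := by
      have hcm : MeasurableSet {v : E n | ‖v‖ < δ} :=
        measurableSet_lt (by fun_prop) measurable_const
      rw [← lintegral_indicator hcm]
      refine lintegral_mono fun v => ?_
      by_cases hv : ‖v‖ < δ
      · rw [indicator_of_mem (by exact hv)]
        simp only [hF]
        rw [indicator_of_mem (hSS y hy v hv), one_mul]
      · rw [indicator_of_notMem (by exact hv)]
        exact zero_le
    refine le_trans ?_ h1
    rw [lintegral_const_mul _ (gd_meas t), mul_comm]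
    gcongr
  · rw [indicator_of_notMem hy]
    exact zero_le

end Vale.Agent.P219.TPH
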