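import Vale.Agent.P219.SA.DensA

/-! # P219, density: integrated density estimate -/

open MeasureTheory Set Metric Filter Topology
open scoped ENNReal ContDiff

namespace Vale.Agent.P219.TPH

open Vale.Agent.P219.TP

variable {n : ℕ} (G : Geo n)

/-- Gaussian density of `|Dh|` at `c`. -/
noncomputable def Th (h : E n → ℝ) (c : E n) (t : ℝ) : ℝ :=
  (t / Real.pi) ^ (((n : ℝ) - 1) / 2) * ∫ y, Real.exp (-t * ‖G.lg c y‖ ^ 2) * ‖G.D h y‖ ∂G.vol

theorem exp_lg_cont (t : ℝ) : Continuous fun z : E n × E n => Real.exp (-t * ‖G.lg z.1 z.2‖ ^ 2) := by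
  have h1 : Continuous fun z : E n × E n => ‖G.lg z.1 z.2‖ := G.lg_smooth.continuous.norm
  fun_prop

theorem exp_lg_meas (t : ℝ) (y : E n) :
    Measurable fun c => ENNReal.ofReal (Real.exp (-t * ‖G.lg c y‖ ^ 2)) := by
  have h1 : Continuous fun c => ‖G.lg c y‖ :=
    (G.lg_smooth.continuous.comp (continuous_id.prodMk continuous_const)).norm
  have h2 : Continuous fun c => Real.exp (-t * ‖G.lg c y‖ ^ 2) := by fun_prop
  exact h2.measurable.ennreal_ofReal

theorem Th_int {o : E n} {ρ : ℝ} {h : E n → ℝ} (hh : G.Cls o ρ h) (c : E n) {t : ℝ} (ht : 0 < t) :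
    Integrable (fun y => Real.exp (-t * ‖G.lg c y‖ ^ 2) * ‖G.D h y‖) G.vol := by
  refine (perc_D_integrable G hh).bdd_mul (c := 1) ?_ (.of_forall fun y => ?_)
  · exact ((exp_lg_cont G t).comp (by fun_prop : Continuous fun y : E n => (c, y))).aestronglyMeasurable
  · rw [Real.norm_eq_abs, abs_of_pos (Real.exp_pos _)]
    refine Real.exp_le_one_iff.2 ?_
    have := mul_nonneg ht.le (sq_nonneg ‖G.lg c y‖)
    linarith

/-- Upper bound of the Jacobian on the ball. -/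
theorem exists_detBound (o : E n) (ρ : ℝ) : ∃ C : ℝ, 0 ≤ C ∧ ∀ y v : E n,
    ‖G.lg o y‖ ≤ ρ → ‖G.lg o (G.ex y v)‖ ≤ ρ → |(G.T y v).det| ≤ C := by
  have hK : IsCompact ((gB G o ρ) ×ˢ (closedBall (0 : E n) (2 * ρ))) :=
    (gB_compact G o ρ).prod (isCompact_closedBall 0 (2 * ρ))
  obtain ⟨C, hC⟩ := hK.exists_bound_of_continuousOn (det_cont G).continuousOn
  refine ⟨max C 0, le_max_right _ _, fun y v hy hv => ?_⟩
  have h1 := perc_norm_lg_le G hy hv
  rw [G.lg_ex] at h1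
  have h2 := hC (y, v) ⟨hy, by simpa using h1⟩
  rw [Real.norm_eq_abs, abs_abs] at h2
  exact h2.trans (le_max_left _ _)

theorem lint_exp {t : ℝ} (ht : 0 < t) : ∫⁻ v : E n, ENNReal.ofReal (Real.exp (-t * ‖v‖ ^ 2)) =
    ENNReal.ofReal ((Real.pi / t) ^ ((n : ℝ) / 2)) := by
  have hpi := Real.pi_pos
  have h5 := GaussianFourier.integral_rexp_neg_mul_sq_norm (V := E n) ht
  have h6 : Integrable fun v : E n => Real.exp (-t * ‖v‖ ^ 2) := by
    by_contra h7
    rw [integral_undef h7] at h5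
    have : 0 < (Real.pi / t) ^ ((Module.finrank ℝ (E n) : ℝ) / 2) := by positivity
    linarith
  rw [← ofReal_integral_eq_lintegral_ofReal h6 (.of_forall fun v => (Real.exp_pos _).le), h5]
  simp

theorem inner_gauss {o : E n} {ρ C : ℝ} (hC0 : 0 ≤ C) (hC : ∀ y v : E n,
    ‖G.lg o y‖ ≤ ρ → ‖G.lg o (G.ex y v)‖ ≤ ρ → |(G.T y v).det| ≤ C) {t : ℝ} (ht : 0 < t)
    {S : Set (E n)} (hS : MeasurableSet S) (hSK : S ⊆ gB G o ρ) {y : E n} (hy : ‖G.lg o y‖ ≤ ρ) :
    ∫⁻ c in S, ENNReal.ofReal (Real.exp (-t * ‖G.lg c y‖ ^ 2)) ∂G.vol ≤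
      ENNReal.ofReal (C * (Real.pi / t) ^ ((n : ℝ) / 2)) := by
  have m5 := exp_lg_meas G t y
  rw [← lintegral_indicator hS, G.lintegral_vol_ex y (m5.indicator hS)]
  have h3 : ∀ v, ENNReal.ofReal |(G.T y v).det| * S.indicator (fun c => ENNReal.ofReal
      (Real.exp (-t * ‖G.lg c y‖ ^ 2))) (G.ex y v) ≤
      ENNReal.ofReal C * ENNReal.ofReal (Real.exp (-t * ‖v‖ ^ 2)) := by
    intro v
    by_cases hv : G.ex y v ∈ S
    · rw [indicator_of_mem hv]
      have h4 : ‖G.lg (G.ex y v) y‖ = ‖v‖ := by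
        rw [G.norm_lg_comm, G.lg_ex]
      rw [h4]
      have h5 := ENNReal.ofReal_le_ofReal (hC y v hy (hSK hv))
      exact mul_le_mul' h5 le_rfl
    · rw [indicator_of_notMem hv, mul_zero]
      exact zero_le
  refine (lintegral_mono h3).trans ?_
  have m4 : Measurable fun v : E n => ENNReal.ofReal (Real.exp (-t * ‖v‖ ^ 2)) := by
    fun_prop
  rw [lintegral_const_mul _ m4, ENNReal.ofReal_mul hC0, lint_exp ht]

theorem Th_integral (o : E n) (ρ : ℝ) : ∃ C : ℝ, 0 ≤ C ∧ ∀ (h : E n → ℝ) (t : ℝ)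
    (S : Set (E n)), G.Cls o ρ h → 0 < t → MeasurableSet S → S ⊆ gB G o ρ →
    ∫⁻ c in S, ENNReal.ofReal (Th G h c t) ∂G.vol ≤
      ENNReal.ofReal (C * √(Real.pi / t) * G.per h) := by
  obtain ⟨C, hC0, hC⟩ := exists_detBound G o ρ
  refine ⟨C, hC0, fun h t S hh ht hS hSK => ?_⟩
  have hpi := Real.pi_pos
  have hDm : Measurable fun y => ENNReal.ofReal ‖G.D h y‖ :=
    (perc_D_cont G hh.smooth).norm.measurable.ennreal_ofReal
  have hem : Measurable fun z : E n × E n =>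
      ENNReal.ofReal (Real.exp (-t * ‖G.lg z.1 z.2‖ ^ 2)) :=
    (exp_lg_cont G t).measurable.ennreal_ofReal
  obtain ⟨P, hP⟩ : ∃ P : ℝ, P = (t / Real.pi) ^ (((n : ℝ) - 1) / 2) := ⟨_, rfl⟩
  have hP0 : 0 ≤ P := by rw [hP]; positivity
  have e1 : ∀ c, ENNReal.ofReal (Th G h c t) = ENNReal.ofReal P *
      ∫⁻ y, ENNReal.ofReal (Real.exp (-t * ‖G.lg c y‖ ^ 2)) * ENNReal.ofReal ‖G.D h y‖ ∂G.vol := by
    intro c
    unfold Th
    rw [← hP, ENNReal.ofReal_mul hP0, ofReal_integral_eq_lintegral_ofReal (Th_int G hh c ht)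
      (.of_forall fun y => by positivity)]
    congr 1
    refine lintegral_congr fun y => ?_
    rw [ENNReal.ofReal_mul (by positivity)]
  simp only [e1]
  have m2 : Measurable fun z : E n × E n => ENNReal.ofReal (Real.exp (-t * ‖G.lg z.1 z.2‖ ^ 2)) *
      ENNReal.ofReal ‖G.D h z.2‖ := hem.mul (hDm.comp measurable_snd)
  rw [lintegral_const_mul _ (m2.lintegral_prod_right'),
    lintegral_lintegral_swap m2.aemeasurable]
  have e2 : ∀ y, ∫⁻ c in S, ENNReal.ofReal (Real.exp (-t * ‖G.lg c y‖ ^ 2)) *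
      ENNReal.ofReal ‖G.D h y‖ ∂G.vol ≤
      ENNReal.ofReal (C * (Real.pi / t) ^ ((n : ℝ) / 2)) * ENNReal.ofReal ‖G.D h y‖ := by
    intro y
    by_cases hy : ‖G.lg o y‖ ≤ ρ
    · have m5 := exp_lg_meas G t y
      rw [lintegral_mul_const _ m5]
      exact mul_le_mul' (inner_gauss G hC0 hC ht hS hSK hy) le_rfl
    · rw [perc_D_of_eventually G (perc_D_zero G hh (not_le.mp hy))]
      simp
  refine (mul_le_mul' le_rfl (lintegral_mono e2)).trans ?_
  rw [lintegral_const_mul _ hDm, ← ofReal_integral_eq_lintegral_ofReal (perc_D_integrable G hh)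
    (.of_forall fun y => norm_nonneg _), ← ENNReal.ofReal_mul (by positivity),
    ← ENNReal.ofReal_mul hP0]
  refine ENNReal.ofReal_le_ofReal (le_of_eq ?_)
  have h8 : P * (Real.pi / t) ^ ((n : ℝ) / 2) = √(Real.pi / t) := by
    rw [hP, Real.sqrt_eq_rpow, show t / Real.pi = (Real.pi / t)⁻¹ by rw [inv_div],
      Real.inv_rpow (by positivity), ← Real.rpow_neg (by positivity),
      ← Real.rpow_add (by positivity)]
    congr 1
    ring
  rw [← h8, Geo.per]
  ring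

end Vale.Agent.P219.TPH
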