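import Vale.Agent.P219.SA.DensB

/-! # P219, density: the mass near a point of constant sign vanishes -/

open MeasureTheory Set Metric Filter Topology
open scoped ENNReal ContDiff

namespace Vale.Agent.P219.TPH

open Vale.Agent.P219.TP

variable {n : ℕ} (G : Geo n)

theorem unif_lt {U : Filter ℕ} {S : Set (E n)} (hS : IsCompact S) {F : ℕ → E n → ℝ} {a : ℝ}
    (hF : ∀ c ∈ S, ∀ ε > 0, ∀ᶠ j in U, F j c < a + ε)
    (heq : ∀ c₀ ∈ S, ∀ ε > 0, ∀ᶠ c in 𝓝 c₀, ∀ j, |F j c - F j c₀| < ε) {ε : ℝ} (hε : 0 < ε) :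
    ∀ᶠ j in U, ∀ c ∈ S, F j c < a + ε := by
  refine hS.induction_on (p := fun s => ∀ᶠ j in U, ∀ c ∈ s, F j c < a + ε) ?_ ?_ ?_ ?_
  · exact .of_forall fun j c hc => absurd hc (notMem_empty c)
  · intro s t hst ht
    exact ht.mono fun j hj c hc => hj c (hst hc)
  · intro s t hs ht
    filter_upwards [hs, ht] with j h1 h2 c hc
    exact hc.elim (h1 c) (h2 c)
  · intro x hx
    refine ⟨{c | ∀ j, |F j c - F j x| < ε / 2}, mem_nhdsWithin_of_mem_nhds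
      (heq x hx (ε / 2) (by positivity)), ?_⟩
    filter_upwards [hF x hx (ε / 2) (by positivity)] with j hj c hc
    have := (abs_lt.1 (hc j)).2
    linarith

theorem pj_meas {f : E n → ℝ} (hm : Measurable f) (t : ℝ) :
    Measurable fun c => ∫⁻ v, ENNReal.ofReal (f (G.ex c v)) * ENNReal.ofReal (gd t v) := by
  have hex : Continuous fun z : E n × E n => G.ex z.1 z.2 := G.ex_smooth.continuous
  have m1 : Measurable fun z : E n × E n => ENNReal.ofReal (f (G.ex z.1 z.2)) :=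
    (hm.comp hex.measurable).ennreal_ofReal
  have m2 : Measurable fun z : E n × E n => ENNReal.ofReal (gd t z.2) :=
    (gd_meas t).comp measurable_snd
  exact (m1.mul m2).lintegral_prod_right'

theorem pj_ofReal {f : E n → ℝ} (hm : Measurable f) (h0 : ∀ x, 0 ≤ f x) (h1 : ∀ x, f x ≤ 1)
    (c : E n) {t : ℝ} (ht : 0 < t) :
    ∫⁻ v, ENNReal.ofReal (f (G.ex c v)) * ENNReal.ofReal (gd t v) = ENNReal.ofReal (pj G f c t) := by
  have hb : ∀ x, |f x| ≤ 1 := fun x => by rw [abs_of_nonneg (h0 x)]; exact h1 x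
  unfold pj
  rw [ofReal_integral_eq_lintegral_ofReal (int_pj G hm hb c ht)
    (.of_forall fun v => mul_nonneg (h0 _) (gd_nonneg ht v))]
  refine lintegral_congr fun v => ?_
  rw [ENNReal.ofReal_mul (h0 _)]

/-- Combined estimate. -/
theorem comb {o : E n} {ρ C : ℝ} (hC0 : 0 ≤ C) (hC : ∀ (h : E n → ℝ) (t : ℝ)
    (S : Set (E n)), G.Cls o ρ h → 0 < t → MeasurableSet S → S ⊆ gB G o ρ →
    ∫⁻ c in S, ENNReal.ofReal (Th G h c t) ∂G.vol ≤ ENNReal.ofReal (C * √(Real.pi / t) * G.per h))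
    {h f : E n → ℝ} (hh : G.Cls o ρ h) (hm : Measurable f) (h0 : ∀ x, 0 ≤ f x)
    (h1 : ∀ x, f x ≤ 1) {t δ b ε : ℝ} (ht : 0 < t) (hε : 0 ≤ ε) (hb : 0 ≤ b)
    (ht2 : ENNReal.ofReal (1 / 2) ≤ ∫⁻ v in {v : E n | ‖v‖ < δ}, ENNReal.ofReal (gd t v))
    {S S' : Set (E n)} (hS : MeasurableSet S) (hSK : S ⊆ gB G o ρ) (hS' : MeasurableSet S')
    (hSS : ∀ y ∈ S', ∀ w : E n, ‖w‖ < δ → G.ex y w ∈ S)
    (hf : ∀ c ∈ S, 4 * (pj G f c t * (1 - pj G f c t)) ≤ Th G h c t + 4 * b)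
    (hfε : ∀ c ∈ S, pj G f c t < 1 / 2 + ε) :
    ∫⁻ y in S', ENNReal.ofReal (f y) ∂G.vol ≤
      ENNReal.ofReal (4 * (ε + b) * G.vol.real (gB G o ρ) + C * √(Real.pi / t) * G.per h) := by
  have hper : 0 ≤ G.per h := integral_nonneg fun _ => norm_nonneg _
  have e0 := l1_est G hm h0 ht2 hS hS' hSS
  have e1 : ∫⁻ c in S, ∫⁻ v, ENNReal.ofReal (f (G.ex c v)) * ENNReal.ofReal (gd t v) ∂volume ∂G.vol
      ≤ ∫⁻ c in S, (ENNReal.ofReal (2 * (ε + b)) + ENNReal.ofReal (1 / 2) *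
        ENNReal.ofReal (Th G h c t)) ∂G.vol := by
    refine setLIntegral_mono' hS fun c hc => ?_
    rw [pj_ofReal G hm h0 h1 c ht]
    have p0 := pj_nonneg G h0 c ht
    have p1 := pj_le_one G hm h0 h1 c ht
    have p2 := hf c hc
    have p3 := hfε c hc
    have p4 : pj G f c t ≤ 2 * (ε + b) + 1 / 2 * Th G h c t := by
      nlinarith [mul_nonneg p0 (by linarith : 0 ≤ 1 + 2 * ε - 2 * pj G f c t),
        mul_nonneg hε (by linarith : 0 ≤ 1 - pj G f c t)]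
    rw [← ENNReal.ofReal_mul (by norm_num)]
    exact (ENNReal.ofReal_le_ofReal p4).trans ENNReal.ofReal_add_le
  have e2 : ∫⁻ c in S, (ENNReal.ofReal (2 * (ε + b)) + ENNReal.ofReal (1 / 2) *
        ENNReal.ofReal (Th G h c t)) ∂G.vol ≤ ENNReal.ofReal (1 / 2) *
      ENNReal.ofReal (4 * (ε + b) * G.vol.real (gB G o ρ) + C * √(Real.pi / t) * G.per h) := by
    rw [lintegral_add_left measurable_const, setLIntegral_const,
      lintegral_const_mul' _ _ ENNReal.ofReal_ne_top]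
    have a1 : G.vol S ≤ ENNReal.ofReal (G.vol.real (gB G o ρ)) := by
      rw [Measure.real, ENNReal.ofReal_toReal (vol_gB_lt G o ρ).ne]
      exact measure_mono hSK
    have a2 := hC h t S hh ht hS hSK
    refine (add_le_add (mul_le_mul' le_rfl a1) (mul_le_mul' le_rfl a2)).trans ?_
    rw [← ENNReal.ofReal_mul (by positivity), ← ENNReal.ofReal_mul (by norm_num),
      ← ENNReal.ofReal_mul (by norm_num), ← ENNReal.ofReal_add (by positivity) (by positivity)]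
    refine ENNReal.ofReal_le_ofReal (le_of_eq ?_)
    ring
  have e3 := (e0.trans e1).trans e2
  have h2 : ENNReal.ofReal (1 / 2) ≠ 0 := by
    rw [Ne, ENNReal.ofReal_eq_zero]; norm_num
  exact (ENNReal.mul_le_mul_iff_right h2 ENNReal.ofReal_ne_top).1 e3

/-- Equicontinuity of the averages. -/
theorem pj_equi {o : E n} {ρ : ℝ} {g : ℕ → E n → ℝ} (hg : ∀ j, G.Cls o ρ (g j))
    (z₀ : E n × ℝ) {ε : ℝ} (hε : 0 < ε) : ∀ᶠ z in 𝓝 z₀, ∀ j,
    |pj G (g j) z.1 (Real.exp z.2) - pj G (g j) z₀.1 (Real.exp z₀.2)| < ε := by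
  filter_upwards [omega_cont G o ρ z₀ hε] with z hz j
  refine lt_of_le_of_lt (pj_diff G (hg j).smooth.continuous.measurable (fun x => ?_)
    (hg j).supp _ _ (Real.exp_pos _) (Real.exp_pos _)) hz
  rw [abs_of_nonneg ((hg j).nonneg x)]
  exact (hg j).le_one x

theorem pj_equi' {o : E n} {ρ : ℝ} {g : ℕ → E n → ℝ} (hg : ∀ j, G.Cls o ρ (g j))
    (c₀ : E n) {t : ℝ} (ht : 0 < t) {ε : ℝ} (hε : 0 < ε) : ∀ᶠ c in 𝓝 c₀, ∀ j,
    |pj G (g j) c t - pj G (g j) c₀ t| < ε := by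
  have h1 := pj_equi G hg (c₀, Real.log t) hε
  have h2 : Tendsto (fun c : E n => (c, Real.log t)) (𝓝 c₀) (𝓝 (c₀, Real.log t)) :=
    (by fun_prop : Continuous fun c : E n => (c, Real.log t)).tendsto c₀
  have h3 := h2.eventually h1
  simp only [Real.exp_log ht] at h3
  exact h3

/-- The mass tends to zero. -/
theorem mass_zero {U : Filter ℕ} {o : E n} {ρ A : ℝ} {g f : ℕ → E n → ℝ}
    (hg : ∀ j, G.Cls o ρ (g j)) (hfm : ∀ j, Measurable (f j)) (hf0 : ∀ j x, 0 ≤ f j x)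
    (hf1 : ∀ j x, f j x ≤ 1) (hA : ∀ᶠ j in U, G.per (g j) ≤ A) {b : ℝ → ℕ → ℝ}
    (hb0 : ∀ t j, 0 < t → 0 ≤ b t j) (hb : ∀ t, 0 < t → Tendsto (b t) U (𝓝 0)) {T₁ δ : ℝ} (hδ : 0 < δ)
    {S S' : Set (E n)} (hS : IsCompact S) (hSK : S ⊆ gB G o ρ) (hS' : MeasurableSet S')
    (hSS : ∀ y ∈ S', ∀ w : E n, ‖w‖ < δ → G.ex y w ∈ S)
    (hf : ∀ t, 0 < t → ∀ j, ∀ c ∈ S, 4 * (pj G (f j) c t * (1 - pj G (f j) c t)) ≤
      Th G (g j) c t + 4 * b t j)
    (hlim : ∀ t ≥ T₁, 0 < t → ∀ c ∈ S, ∀ ε > 0, ∀ᶠ j in U, pj G (f j) c t < 1 / 2 + ε)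
    (heq : ∀ t, 0 < t → ∀ c₀ ∈ S, ∀ ε > 0, ∀ᶠ c in 𝓝 c₀, ∀ j,
      |pj G (f j) c t - pj G (f j) c₀ t| < ε) {η : ℝ} (hη : 0 < η) :
    ∀ᶠ j in U, ∫⁻ y in S', ENNReal.ofReal (f j y) ∂G.vol ≤ ENNReal.ofReal η := by
  obtain ⟨C, hC0, hC⟩ := Th_integral G o ρ
  obtain ⟨T₂, hT₂⟩ := gd_ball (n := n) hδ
  -- choice of t
  have hlim1 : Tendsto (fun t : ℝ => C * √(Real.pi / t) * A) atTop (𝓝 0) := by
    have h1 : Tendsto (fun t : ℝ => √(Real.pi / t)) atTop (𝓝 0) := by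
      have h2 : Tendsto (fun t : ℝ => Real.pi / t) atTop (𝓝 0) :=
        tendsto_const_nhds.div_atTop tendsto_id
      have h3 := (Real.continuous_sqrt.tendsto 0).comp h2
      rwa [Real.sqrt_zero] at h3
    simpa using (h1.const_mul C).mul_const A
  obtain ⟨t, ht⟩ := ((hlim1.eventually (gt_mem_nhds (show (0 : ℝ) < η / 2 by positivity))).and
    ((eventually_ge_atTop T₁).and ((eventually_ge_atTop T₂).and (eventually_gt_atTop 0)))).exists
  obtain ⟨ht1, ht2, ht3, ht0⟩ := ht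
  obtain ⟨W, hW⟩ : ∃ W, W = G.vol.real (gB G o ρ) := ⟨_, rfl⟩
  have hW0 : 0 ≤ W := by rw [hW]; exact measureReal_nonneg
  obtain ⟨ε, hε⟩ : ∃ ε, ε = η / (16 * (W + 1)) := ⟨_, rfl⟩
  have hεp : 0 < ε := by rw [hε]; positivity
  have hu := unif_lt hS (hlim t ht2 ht0) (heq t ht0) hεp
  filter_upwards [hu, hA, (hb t ht0).eventually (gt_mem_nhds hεp)] with j h1 h2 h3
  refine (comb G hC0 hC (hg j) (hfm j) (hf0 j) (hf1 j) ht0 hεp.le (hb0 t j ht0) (hT₂ t ht3 ht0)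
    hS.measurableSet hSK hS' hSS (hf t ht0 j) h1).trans ?_
  refine ENNReal.ofReal_le_ofReal ?_
  rw [← hW]
  have h4 : 4 * (ε + b t j) * W ≤ η / 2 := by
    have h5 : 4 * (ε + b t j) ≤ 8 * ε := by linarith
    have h6 : 8 * ε * (W + 1) = η / 2 := by rw [hε]; field_simp; norm_num
    have h7 : 4 * (ε + b t j) * W ≤ 8 * ε * W := mul_le_mul_of_nonneg_right h5 hW0
    nlinarith
  have h8 : C * √(Real.pi / t) * G.per (g j) ≤ C * √(Real.pi / t) * A :=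
    mul_le_mul_of_nonneg_left h2 (by positivity)
  linarith

end Vale.Agent.P219.TPH
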