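import Vale.Agent.P219.SA.DensC
import Vale.Agent.P219.SA.Pass
import Vale.Agent.P219.MP.Geo

/-! # P219, density: half-mass centres -/

open MeasureTheory Set Metric Filter Topology
open scoped ENNReal ContDiff

namespace Vale.Agent.P219.SA

open Vale.Agent.P219.TP Vale.Agent.P219.TPH
open Vale.Agent.P219.End (KS nrm isCompact_KS)

variable {n : ℕ} (G : Geo n)

theorem pj_eq_pm (h : E n → ℝ) (c : E n) {t : ℝ} (ht : 0 < t) :
    pj G h c t = MPG.pm G t h c := by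
  unfold pj MPG.pm gm
  rw [integral_withDensity_eq_integral_toReal_smul (gd_meas t)
    (.of_forall fun v => ENNReal.ofReal_lt_top)]
  congr 1
  funext v
  rw [ENNReal.toReal_ofReal (gd_nonneg ht v), smul_eq_mul, mul_comm]

/-- Density bound for the averages. -/
theorem pj_half (hn : 1 ≤ n) {o : E n} {ρ : ℝ} {h : E n → ℝ} (hh : G.Cls o ρ h) (c : E n) {t : ℝ}
    (ht : 0 < t) : 4 * (pj G h c t * (1 - pj G h c t)) ≤ Th G h c t +
      (t / Real.pi) ^ ((n : ℝ) / 2) * G.vol.real {x | 0 < h x ∧ h x < 1} := by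
  rw [pj_eq_pm G h c ht]
  exact MPG.mp_half G hn ht hh c

/-- At a boundary point of the ball the mass is at most one half. -/
theorem pj_bdry (hn : 1 ≤ n) {o x : E n} {ρ : ℝ} (hx : ‖G.lg o x‖ = ρ) {h : E n → ℝ} (hh : G.Cls o ρ h)
    {t : ℝ} (ht : 0 < t) : pj G h x t ≤ 1 / 2 := by
  have hb : ∀ y, |h y| ≤ 1 := fun y => by rw [abs_of_nonneg (hh.nonneg y)]; exact hh.le_one y
  have hm : Measurable h := hh.smooth.continuous.measurable
  have i1 := int_pj G hm hb x ht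
  have e1 : ∫ v : E n, h (G.ex x (-v)) * gd t v = pj G h x t := by
    unfold pj
    have h1 := integral_neg_eq_self (fun v : E n => h (G.ex x v) * gd t v) volume
    rw [← h1]
    congr 1
    funext v
    unfold gd
    rw [norm_neg]
  have i2 : Integrable fun v : E n => h (G.ex x (-v)) * gd t v := by
    have h1 := i1.comp_neg
    refine h1.congr (.of_forall fun v => ?_)
    simp only
    unfold gd
    rw [norm_neg]
  have hkey : ∀ v : E n, h (G.ex x v) ≠ 0 → ‖v‖ ^ 2 ≤ 2 * inner ℝ v (G.lg x o) := by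
    intro v hv
    have h1 := hh.supp _ hv
    have h2 := G.lg_nonexp x (G.ex x v) o
    rw [G.lg_ex, G.norm_lg_comm] at h2
    have h3 : ‖v - G.lg x o‖ ≤ ρ := h2.trans h1
    have h4 : ‖v - G.lg x o‖ ^ 2 ≤ ρ ^ 2 := pow_le_pow_left₀ (norm_nonneg _) h3 2
    rw [norm_sub_sq_real, G.norm_lg_comm x o, hx] at h4
    linarith
  have h2 : ∫ v : E n, (h (G.ex x v) * gd t v + h (G.ex x (-v)) * gd t v) ≤ ∫ v : E n, gd t v := by
    refine integral_mono_ae (i1.add i2) (integrable_gd ht) ?_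
    have h3 : ∀ᵐ v : E n, v ≠ 0 := by
      have : Nonempty (Fin n) := ⟨⟨0, by omega⟩⟩
      have : (volume : Measure (E n)) {0} = 0 := measure_singleton 0
      refine (measure_eq_zero_iff_ae_notMem.1 this).mono fun v hv => ?_
      simpa using hv
    filter_upwards [h3] with v hv
    show h (G.ex x v) * gd t v + h (G.ex x (-v)) * gd t v ≤ gd t v
    rw [← add_mul]
    refine mul_le_of_le_one_left (gd_nonneg ht v) ?_
    by_cases a1 : h (G.ex x v) = 0
    · rw [a1, zero_add]; exact hh.le_one _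
    by_cases a2 : h (G.ex x (-v)) = 0
    · rw [a2, add_zero]; exact hh.le_one _
    have b1 := hkey v a1
    have b2 := hkey (-v) a2
    rw [norm_neg, inner_neg_left] at b2
    have b3 : ‖v‖ ^ 2 ≤ 0 := by linarith
    have b4 : v = 0 := by
      rw [← norm_eq_zero]
      exact pow_eq_zero_iff (two_ne_zero) |>.1 (le_antisymm b3 (sq_nonneg _))
    exact absurd b4 hv
  rw [integral_add i1 i2, e1, integral_gd ht] at h2
  have h3 : ∫ v, h (G.ex x v) * gd t v = pj G h x t := rfl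
  rw [h3] at h2
  linarith

/-- The neighbourhood of `x` in the ball. -/
def nbd (o x : E n) (ρ e : ℝ) : Set (E n) := {c | ‖G.lg o c‖ ≤ ρ ∧ ‖G.lg x c‖ ≤ e}

theorem nbd_compact (o x : E n) (ρ e : ℝ) : IsCompact (nbd G o x ρ e) := by
  refine (gB_compact G o ρ).inter_right (t := {c | ‖G.lg x c‖ ≤ e}) ?_
  exact (gB_compact G x e).isClosed

theorem nbd_preconnected {o x : E n} {ρ e : ℝ} (hx : ‖G.lg o x‖ ≤ ρ) (he : 0 ≤ e) :
    IsPreconnected (nbd G o x ρ e) := by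
  have hxm : x ∈ nbd G o x ρ e := ⟨hx, by rw [G.lg_self, norm_zero]; exact he⟩
  refine isPreconnected_of_forall x fun y hy => ?_
  refine ⟨(fun s : ℝ => G.ex x (s • G.lg x y)) '' Icc 0 1, ?_, ?_, ?_, ?_⟩
  · rintro _ ⟨s, hs, rfl⟩
    refine ⟨G.ball_convex hx hy.1 hs.1 hs.2, ?_⟩
    simp only [G.lg_ex, norm_smul, Real.norm_eq_abs, abs_of_nonneg hs.1]
    exact (mul_le_of_le_one_left (norm_nonneg _) hs.2).trans hy.2
  · exact ⟨0, ⟨le_rfl, zero_le_one⟩, by simp [G.ex_zero]⟩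
  · exact ⟨1, ⟨zero_le_one, le_rfl⟩, by simp [G.ex_lg]⟩
  · refine isPreconnected_Icc.image _ ?_
    have h1 : Continuous fun s : ℝ => G.ex x (s • G.lg x y) :=
      (G.ex_smooth_right x).continuous.comp (by fun_prop)
    exact h1.continuousOn

/-- The limit of the averages. -/
theorem exists_pl {o : E n} {ρ : ℝ} {g : ℕ → E n → ℝ} (hg : ∀ j, G.Cls o ρ (g j))
    (U : Ultrafilter ℕ) : ∃ p : E n × ℝ → ℝ, Continuous p ∧ ∀ z,
    Tendsto (fun j => pj G (g j) z.1 (Real.exp z.2)) U (𝓝 (p z)) := by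
  have h1 : ∀ z : E n × ℝ, ∃ a : ℝ,
      Tendsto (fun j => pj G (g j) z.1 (Real.exp z.2)) U (𝓝 a) := by
    intro z
    have hb : ∀ j, pj G (g j) z.1 (Real.exp z.2) ∈ Icc (0 : ℝ) 1 := fun j =>
      ⟨pj_nonneg G (hg j).nonneg _ (Real.exp_pos _), pj_le_one G (hg j).smooth.continuous.measurable
        (hg j).nonneg (hg j).le_one _ (Real.exp_pos _)⟩
    obtain ⟨a, -, ha⟩ := isCompact_Icc.ultrafilter_le_nhds'
      (U.map fun j => pj G (g j) z.1 (Real.exp z.2)) (by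
        rw [Ultrafilter.mem_map]
        exact Filter.univ_mem' hb)
    exact ⟨a, ha⟩
  choose p hp using h1
  refine ⟨p, ?_, hp⟩
  rw [continuous_iff_continuousAt]
  intro z₀
  rw [ContinuousAt, Metric.tendsto_nhds]
  intro ε hε
  filter_upwards [pj_equi G hg z₀ (show 0 < ε / 2 by positivity)] with z hz
  rw [Real.dist_eq]
  have h2 : Tendsto (fun j => |pj G (g j) z.1 (Real.exp z.2) - pj G (g j) z₀.1 (Real.exp z₀.2)|) U
      (𝓝 |p z - p z₀|) := ((hp z).sub (hp z₀)).abs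
  have h3 := le_of_tendsto' h2 fun j => (hz j).le
  linarith

/-- Gaussian density of the limit. -/
noncomputable def ThV (V : Measure (E n × E n)) (c : E n) (t : ℝ) : ℝ :=
  (t / Real.pi) ^ (((n : ℝ) - 1) / 2) * ∫ z, Real.exp (-t * ‖G.lg c z.1‖ ^ 2) ∂V

theorem Th_tendsto {o : E n} {ρ : ℝ} {U : Ultrafilter ℕ} {h : ℕ → E n → ℝ}
    {V : Measure (E n × E n)} (hV : IsLim G o ρ U h V) (c : E n) (t : ℝ) :
    Tendsto (fun j => Th G (h j) c t) U (𝓝 (ThV G V c t)) := by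
  unfold Th ThV
  refine Tendsto.const_mul _ ?_
  have h1 : Continuous fun z : E n × E n => ‖G.lg c z.1‖ :=
    (G.lg_smooth.continuous.comp (continuous_const.prodMk continuous_fst)).norm
  have hc : Continuous fun z : E n × E n => Real.exp (-t * ‖G.lg c z.1‖ ^ 2) := by fun_prop
  exact hV.lim _ hc.continuousOn

theorem pl_ineq (hn : 1 ≤ n) {o : E n} {ρ : ℝ} {I : ℝ → ℝ} {J Vs : ℝ} {U : Ultrafilter ℕ}
    {h : ℕ → E n → ℝ} (hm : MinSeq G o ρ I J Vs U h) {V : Measure (E n × E n)}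
    (hV : IsLim G o ρ U h V) {p : E n × ℝ → ℝ}
    (hp : ∀ z, Tendsto (fun j => pj G (h j) z.1 (Real.exp z.2)) U (𝓝 (p z))) (z : E n × ℝ) :
    4 * (p z * (1 - p z)) ≤ ThV G V z.1 (Real.exp z.2) := by
  have h1 : Tendsto (fun j => 4 * (pj G (h j) z.1 (Real.exp z.2) *
      (1 - pj G (h j) z.1 (Real.exp z.2)))) U (𝓝 (4 * (p z * (1 - p z)))) :=
    ((hp z).mul (tendsto_const_nhds.sub (hp z))).const_mul 4
  have h2 := (Th_tendsto G hV z.1 (Real.exp z.2)).add
    (hm.thin.const_mul ((Real.exp z.2 / Real.pi) ^ ((n : ℝ) / 2)))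
  rw [mul_zero, add_zero] at h2
  exact le_of_tendsto_of_tendsto' h1 h2 fun j => pj_half G hn (hm.cls j) z.1 (Real.exp_pos _)

/-- Dichotomy. -/
theorem pl_sign {p : E n × ℝ → ℝ} (hp : Continuous p) {D : Set (E n × ℝ)} (hD : IsPreconnected D)
    (hne : ∀ z ∈ D, p z ≠ 1 / 2) : (∀ z ∈ D, p z < 1 / 2) ∨ (∀ z ∈ D, 1 / 2 < p z) := by
  by_contra hcon
  push Not at hcon
  obtain ⟨⟨z₁, h1, h1'⟩, z₂, h2, h2'⟩ := hcon
  obtain ⟨z, hz, hz'⟩ := hD.intermediate_value h2 h1 hp.continuousOn ⟨h2', h1'⟩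
  exact hne z hz hz'

end Vale.Agent.P219.SA
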