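import Vale.Agent.P219.SA.DensD

/-! # P219, density: the two cases -/

open MeasureTheory Set Metric Filter Topology
open scoped ENNReal ContDiff

namespace Vale.Agent.P219.SA

open Vale.Agent.P219.TP Vale.Agent.P219.TPH
open Vale.Agent.P219.End (KS nrm isCompact_KS)

variable {n : ℕ} (G : Geo n)

theorem lg_norm_cont (o : E n) : Continuous fun y => ‖G.lg o y‖ :=
  (G.lg_smooth.continuous.comp (continuous_const.prodMk continuous_id)).norm

/-- Thin layers of the ball have small volume. -/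
theorem layer_small (hn : 1 ≤ n) (o : E n) (ρ : ℝ) {η : ℝ} (hη : 0 < η) :
    ∃ δ₀ > 0, G.vol {y | ρ - δ₀ < ‖G.lg o y‖ ∧ ‖G.lg o y‖ ≤ ρ} ≤ ENNReal.ofReal η := by
  have hc := lg_norm_cont G o
  set L : ℕ → Set (E n) := fun k => {y | ρ - 1 / ((k : ℝ) + 1) < ‖G.lg o y‖ ∧ ‖G.lg o y‖ ≤ ρ}
    with hL
  have hLm : ∀ k, MeasurableSet (L k) := fun k =>
    (measurableSet_lt measurable_const hc.measurable).inter
      (measurableSet_le hc.measurable measurable_const)
  have hanti : Antitone L := by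
    intro k l hkl y hy
    refine ⟨lt_of_le_of_lt ?_ hy.1, hy.2⟩
    have : 1 / ((l : ℝ) + 1) ≤ 1 / ((k : ℝ) + 1) := by
      apply one_div_le_one_div_of_le (by positivity)
      have : (k : ℝ) ≤ l := by exact_mod_cast hkl
      linarith
    linarith
  have hfin : ∃ k, G.vol (L k) ≠ ⊤ := by
    refine ⟨0, ne_top_of_le_ne_top (vol_gB_lt G o ρ).ne (measure_mono fun y hy => hy.2)⟩
  have h1 := tendsto_measure_iInter_atTop (μ := G.vol) (fun k => (hLm k).nullMeasurableSet)
    hanti hfin
  have h2 : G.vol (⋂ k, L k) = 0 := by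
    have hsub : (⋂ k, L k) ⊆ {y | ‖G.lg o y‖ = ρ} := by
      intro y hy
      rw [mem_iInter] at hy
      refine le_antisymm (hy 0).2 ?_
      refine le_of_forall_pos_lt_add fun ε hε => ?_
      obtain ⟨k, hk⟩ := exists_nat_one_div_lt hε
      have := (hy k).1
      linarith
    refine measure_mono_null hsub ?_
    have hm : MeasurableSet {y | ‖G.lg o y‖ = ρ} := measurableSet_eq_fun hc.measurable
      measurable_const
    rw [← lintegral_indicator_one hm, G.lintegral_vol_ex o (measurable_one.indicator hm)]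
    have h3 : (volume : Measure (E n)) (sphere 0 ρ) = 0 := by
      have : Nonempty (Fin n) := ⟨⟨0, by omega⟩⟩
      exact Measure.addHaar_sphere _ _ _
    have h4 : ∀ᵐ v : E n, v ∉ sphere (0 : E n) ρ := measure_eq_zero_iff_ae_notMem.1 h3
    rw [lintegral_eq_zero_iff' ?_]
    · filter_upwards [h4] with v hv
      have : G.ex o v ∉ {y | ‖G.lg o y‖ = ρ} := by
        intro h5
        rw [mem_ofPred_eq, G.lg_ex] at h5
        exact hv (by simpa using h5)
      rw [indicator_of_notMem this, mul_zero]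
      rfl
    · refine AEMeasurable.mul ?_ ?_
      · have : Continuous fun v => |(G.T o v).det| :=
          (det_cont G).comp (continuous_const.prodMk continuous_id)
        exact this.measurable.ennreal_ofReal.aemeasurable
      · exact ((measurable_one.indicator hm).comp
          (G.ex_smooth_right o).continuous.measurable).aemeasurable
  rw [h2] at h1
  have h5 : (0 : ℝ≥0∞) < ENNReal.ofReal η := ENNReal.ofReal_pos.2 hη
  obtain ⟨k, hk⟩ := (h1.eventually (gt_mem_nhds h5)).exists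
  exact ⟨1 / ((k : ℝ) + 1), by positivity, hk.le⟩

theorem tendsto_zero_of {U : Filter ℕ} {f : ℕ → E n → ℝ} (hfm : ∀ j, Measurable (f j))
    (hf0 : ∀ j x, 0 ≤ f j x) {B : Set (E n)}
    (h : ∀ η > 0, ∀ᶠ j in U, ∫⁻ y in B, ENNReal.ofReal (f j y) ∂G.vol ≤ ENNReal.ofReal η) :
    Tendsto (fun j => ∫ y in B, f j y ∂G.vol) U (𝓝 0) := by
  rw [Metric.tendsto_nhds]
  intro ε hε
  filter_upwards [h (ε / 2) (by positivity)] with j hj
  rw [Real.dist_eq, sub_zero, integral_eq_lintegral_of_nonneg_ae (.of_forall fun y => hf0 j y)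
    (hfm j).aestronglyMeasurable, abs_of_nonneg ENNReal.toReal_nonneg]
  have h1 := ENNReal.toReal_mono ENNReal.ofReal_ne_top hj
  rw [ENNReal.toReal_ofReal (by positivity)] at h1
  linarith

/-- The total variations are bounded. -/
theorem per_bdd {o : E n} {ρ : ℝ} {U : Ultrafilter ℕ} {h : ℕ → E n → ℝ}
    {V : Measure (E n × E n)} (hV : IsLim G o ρ U h V) :
    ∀ᶠ j in (U : Filter ℕ), G.per (h j) ≤ V.real univ + 1 :=
  (hV.mass.eventually (gt_mem_nhds (lt_add_one _))).mono fun j hj => hj.le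

/-- Case A: the mass near `x` tends to zero. -/
theorem caseA (hn : 1 ≤ n) {o : E n} {ρ : ℝ} {I : ℝ → ℝ} {J Vs : ℝ} {U : Ultrafilter ℕ}
    {h : ℕ → E n → ℝ} (hm : MinSeq G o ρ I J Vs U h) {V : Measure (E n × E n)}
    (hV : IsLim G o ρ U h V) {x : E n} {e : ℝ} (he : 0 < e) {T : ℝ}
    (hlow : ∀ c ∈ nbd G o x ρ e, ∀ t ≥ T, ∀ ε > 0, ∀ᶠ j in (U : Filter ℕ),
      pj G (h j) c t < 1 / 2 + ε) :
    Tendsto (fun j => ∫ y in {y | ‖G.lg x y‖ ≤ e / 2}, h j y ∂G.vol) U (𝓝 0) := by
  have hpi := Real.pi_pos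
  have hmeas : ∀ j, Measurable (h j) := fun j => (hm.cls j).smooth.continuous.measurable
  refine tendsto_zero_of G hmeas (fun j => (hm.cls j).nonneg) fun η hη => ?_
  obtain ⟨δ₀, hδ₀, hlay⟩ := layer_small G hn o ρ (show 0 < η / 2 by positivity)
  have hco := lg_norm_cont G o
  have hcx := lg_norm_cont G x
  set S' : Set (E n) := {y | ‖G.lg x y‖ ≤ e / 2 ∧ ‖G.lg o y‖ ≤ ρ - δ₀} with hS'
  have hS'm : MeasurableSet S' := (measurableSet_le hcx.measurable measurable_const).inter
    (measurableSet_le hco.measurable measurable_const)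
  have hLm : MeasurableSet {y | ρ - δ₀ < ‖G.lg o y‖ ∧ ‖G.lg o y‖ ≤ ρ} :=
    (measurableSet_lt measurable_const hco.measurable).inter
      (measurableSet_le hco.measurable measurable_const)
  have hBm : MeasurableSet {y | ‖G.lg x y‖ ≤ e / 2} :=
    measurableSet_le hcx.measurable measurable_const
  have hmz := mass_zero G (U := U) (A := V.real univ + 1) (b := fun t j =>
      (t / Real.pi) ^ ((n : ℝ) / 2) * G.vol.real {x | 0 < h j x ∧ h j x < 1} / 4)
    (T₁ := T) (δ := min δ₀ (e / 2)) (S := nbd G o x ρ e) (S' := S') (f := h) hm.cls hmeas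
    (fun j => (hm.cls j).nonneg) (fun j => (hm.cls j).le_one) (per_bdd G hV)
    (fun t j ht => by positivity)
    (fun t ht => by
      have := (hm.thin.const_mul ((t / Real.pi) ^ ((n : ℝ) / 2))).div_const 4
      simpa using this)
    (lt_min hδ₀ (by positivity)) (nbd_compact G o x ρ e) (fun y hy => hy.1) hS'm
    (fun y hy w hw => by
      have h1 := lt_min_iff.1 hw
      constructor
      · have := lg_tri G o y w
        linarith [hy.2, h1.1]
      · have := lg_tri G x y w
        linarith [hy.1, h1.2])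
    (fun t ht j c _ => by
      have := pj_half G hn (hm.cls j) c ht
      linarith)
    (fun t ht _ c hc ε hε => hlow c hc t ht ε hε)
    (fun t ht c₀ _ ε hε => pj_equi' G hm.cls c₀ ht hε) (show 0 < η / 2 by positivity)
  filter_upwards [hmz] with j hj
  have h1 : ∫⁻ y in {y | ‖G.lg x y‖ ≤ e / 2}, ENNReal.ofReal (h j y) ∂G.vol ≤
      (∫⁻ y in S', ENNReal.ofReal (h j y) ∂G.vol) +
        ∫⁻ _ in {y | ρ - δ₀ < ‖G.lg o y‖ ∧ ‖G.lg o y‖ ≤ ρ}, 1 ∂G.vol := by
    rw [← lintegral_indicator hBm, ← lintegral_indicator hS'm, ← lintegral_indicator hLm,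
      ← lintegral_add_left ((hmeas j).ennreal_ofReal.indicator hS'm)]
    refine lintegral_mono fun y => ?_
    by_cases hyB : y ∈ {y | ‖G.lg x y‖ ≤ e / 2}
    · rw [indicator_of_mem hyB]
      by_cases hy0 : h j y = 0
      · rw [hy0, ENNReal.ofReal_zero]; exact zero_le
      have hyK := (hm.cls j).supp y hy0
      by_cases hyS : ‖G.lg o y‖ ≤ ρ - δ₀
      · rw [indicator_of_mem (show y ∈ S' from ⟨hyB, hyS⟩)]
        exact le_self_add
      · rw [indicator_of_mem (show y ∈ {y | ρ - δ₀ < ‖G.lg o y‖ ∧ ‖G.lg o y‖ ≤ ρ} from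
          ⟨not_le.1 hyS, hyK⟩)]
        refine le_trans ?_ le_add_self
        rw [← ENNReal.ofReal_one]
        exact ENNReal.ofReal_le_ofReal ((hm.cls j).le_one y)
    · rw [indicator_of_notMem hyB]
      exact zero_le
  refine h1.trans ?_
  rw [setLIntegral_one]
  refine (add_le_add hj hlay).trans ?_
  rw [← ENNReal.ofReal_add (by positivity) (by positivity)]
  exact ENNReal.ofReal_le_ofReal (by linarith)

/-- Case B: the complementary mass near an interior point tends to zero. -/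
theorem caseB (hn : 1 ≤ n) {o : E n} {ρ : ℝ} {I : ℝ → ℝ} {J Vs : ℝ} {U : Ultrafilter ℕ}
    {h : ℕ → E n → ℝ} (hm : MinSeq G o ρ I J Vs U h) {V : Measure (E n × E n)}
    (hV : IsLim G o ρ U h V) {x : E n} {e : ℝ} (he : 0 < e)
    (hint : ∀ y, ‖G.lg x y‖ ≤ e → ‖G.lg o y‖ ≤ ρ) {T : ℝ}
    (hup : ∀ c ∈ nbd G o x ρ e, ∀ t ≥ T, ∀ ε > 0, ∀ᶠ j in (U : Filter ℕ),
      1 / 2 - ε < pj G (h j) c t) :
    Tendsto (fun j => ∫ y in {y | ‖G.lg x y‖ ≤ e / 2}, (1 - h j y) ∂G.vol) U (𝓝 0) := by
  have hpi := Real.pi_pos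
  have hmeas : ∀ j, Measurable (h j) := fun j => (hm.cls j).smooth.continuous.measurable
  have hb : ∀ j y, |h j y| ≤ 1 := fun j y => by
    rw [abs_of_nonneg ((hm.cls j).nonneg y)]; exact (hm.cls j).le_one y
  have hmeas' : ∀ j, Measurable fun y => 1 - h j y := fun j => measurable_const.sub (hmeas j)
  refine tendsto_zero_of G hmeas' (fun j y => sub_nonneg.2 ((hm.cls j).le_one y)) fun η hη => ?_
  have hcx := lg_norm_cont G x
  have hBm : MeasurableSet {y | ‖G.lg x y‖ ≤ e / 2} :=
    measurableSet_le hcx.measurable measurable_const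
  refine mass_zero G (U := U) (A := V.real univ + 1) (b := fun t j =>
      (t / Real.pi) ^ ((n : ℝ) / 2) * G.vol.real {x | 0 < h j x ∧ h j x < 1} / 4)
    (T₁ := T) (δ := e / 2) (S := nbd G o x ρ e) (S' := {y | ‖G.lg x y‖ ≤ e / 2})
    (f := fun j y => 1 - h j y) hm.cls hmeas'
    (fun j y => sub_nonneg.2 ((hm.cls j).le_one y))
    (fun j y => by linarith [(hm.cls j).nonneg y]) (per_bdd G hV)
    (fun t j ht => by positivity)
    (fun t ht => by
      have := (hm.thin.const_mul ((t / Real.pi) ^ ((n : ℝ) / 2))).div_const 4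
      simpa using this)
    (by positivity) (nbd_compact G o x ρ e) (fun y hy => hy.1) hBm
    (fun y hy w hw => by
      have h1 : ‖G.lg x (G.ex y w)‖ ≤ e := by
        have := lg_tri G x y w
        have h2 : ‖G.lg x y‖ ≤ e / 2 := hy
        linarith
      exact ⟨hint _ h1, h1⟩)
    (fun t ht j c _ => by
      rw [pj_one_sub G (hmeas j) (hb j) c ht]
      have := pj_half G hn (hm.cls j) c ht
      have e1 : (1 - pj G (h j) c t) * (1 - (1 - pj G (h j) c t)) =
        pj G (h j) c t * (1 - pj G (h j) c t) := by ring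
      rw [e1]
      linarith)
    (fun t ht ht0 c hc ε hε => by
      filter_upwards [hup c hc t ht ε hε] with j hj
      rw [pj_one_sub G (hmeas j) (hb j) c ht0]
      linarith)
    (fun t ht c₀ _ ε hε => by
      filter_upwards [pj_equi' G hm.cls c₀ ht hε] with c hc j
      rw [pj_one_sub G (hmeas j) (hb j) c ht, pj_one_sub G (hmeas j) (hb j) c₀ ht]
      have e1 : 1 - pj G (h j) c t - (1 - pj G (h j) c₀ t) =
        -(pj G (h j) c t - pj G (h j) c₀ t) := by ring
      rw [e1, abs_neg]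
      exact hc j) hη

end Vale.Agent.P219.SA
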