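import Vale.Agent.P219.SA.Pass
import Vale.Agent.P219.SA.Crude
import Vale.Agent.P219.TPH.FinalH

/-! # P219, all dimensions: the limit measure if the isoperimetric inequality fails -/

open MeasureTheory Set Metric Filter Topology
open scoped ENNReal NNReal ContDiff

namespace Vale.Agent.P219.SA

open Vale.Agent.P219.TP Vale.Agent.P219.TPH
open Vale.Agent.P219.End (KS nrm)

variable {n : ℕ} {k : ℝ} (G : Geo n)

/-- The mass of the limit. -/
theorem mass_eq {o : E n} {ρ : ℝ} {I : ℝ → ℝ} {J Vs : ℝ} {U : Ultrafilter ℕ}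
    {h : ℕ → E n → ℝ} {V : Measure (E n × E n)} (hIcont : ContinuousOn I (Ici 0)) (hVs : 0 ≤ Vs)
    (hm : MinSeq G o ρ I J Vs U h) (hV : IsLim G o ρ U h V) : V.real univ = J + I Vs := by
  have h1 := IsLim.mass G hV
  have h2 : Tendsto (fun j => I (V1 G (h j))) U (𝓝 (I Vs)) := by
    have h3 : Tendsto (fun j => V1 G (h j)) U (𝓝[Ici 0] Vs) :=
      tendsto_nhdsWithin_iff.2 ⟨hm.vol, Eventually.of_forall fun j => sliceh_V1_nonneg G (h j)⟩
    exact (hIcont Vs hVs).tendsto.comp h3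
  have h3 := hm.lim.add h2
  refine tendsto_nhds_unique h1 (h3.congr fun j => ?_)
  ring

/-- The limit is not zero. -/
theorem mass_pos (hn : 1 ≤ n) {o : E n} {ρ : ℝ} {I : ℝ → ℝ} {J Vs : ℝ} {U : Ultrafilter ℕ}
    {h : ℕ → E n → ℝ} {V : Measure (E n × E n)} (hVs : 0 < Vs)
    (hm : MinSeq G o ρ I J Vs U h) (hV : IsLim G o ρ U h V) : 0 < V.real univ := by
  obtain ⟨C, hC, hCb⟩ := V1_le_per G hn o ρ
  have h1 := (IsLim.mass G hV).const_mul C
  have h2 : Vs ≤ C * V.real univ :=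
    le_of_tendsto_of_tendsto hm.vol h1 (Eventually.of_forall fun j => hCb _ (hm.cls j))
  by_contra h3
  rw [not_lt] at h3
  nlinarith

/-- If the isoperimetric inequality fails, there is a minimising sequence with negative
infimum. -/
theorem exists_minSeq (hn : 2 ≤ n) (hk : 0 ≤ k) {I : ℝ → ℝ} (hImono : MonotoneOn I (Ici 0))
    (hIcont : ContinuousOn I (Ici 0)) (hI0 : ∀ V, 0 ≤ V → 0 ≤ I V) (hIz : I 0 = 0)
    (o : E n) (ρ : ℝ) {h : E n → ℝ} (hh : G.Cls o ρ h) (hneg : G.per h - I (V1 G h) < 0)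
    {U : Ultrafilter ℕ} (hU : (U : Filter ℕ) ≤ atTop) :
    ∃ J Rs : ℝ, J < 0 ∧ 0 < Rs ∧ ∃ g : ℕ → E n → ℝ, MinSeq G o ρ I J (VR n k Rs) U g ∧
      ∃ C, ∀ j, G.per (g j) ≤ C := by
  obtain ⟨Cb, hCb⟩ := deficit_bddBelow G hImono o ρ
  set S : Set ℝ := {y | ∃ h, G.Cls o ρ h ∧ G.per h - I (V1 G h) = y} with hS
  have hSb : BddBelow S := ⟨-Cb, by rintro y ⟨g, hg, rfl⟩; exact hCb g hg⟩
  have hSn : S.Nonempty := ⟨_, h, hh, rfl⟩
  obtain ⟨J, hJdef⟩ : ∃ J, J = sInf S := ⟨_, rfl⟩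
  have hJ : ∀ g, G.Cls o ρ g → J ≤ G.per g - I (V1 G g) :=
    fun g hg => hJdef ▸ csInf_le hSb ⟨g, hg, rfl⟩
  have hJ' : ∀ ε > 0, ∃ g, G.Cls o ρ g ∧ G.per g - I (V1 G g) < J + ε := by
    intro ε hε
    obtain ⟨y, ⟨g, hg, rfl⟩, hlt⟩ := exists_lt_of_csInf_lt hSn (lt_add_of_pos_right (sInf S) hε)
    exact ⟨g, hg, hJdef ▸ hlt⟩
  have hJ0 : J < 0 := (hJ h hh).trans_lt hneg
  obtain ⟨Vs, hVs0, hseq⟩ := exists_min_seq G hI0 hImono o ρ hJ hJ'
  have hper : ∀ g : E n → ℝ, 0 ≤ G.per g := fun g => integral_nonneg fun _ => norm_nonneg _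
  have hIVs : -J ≤ I Vs := by
    by_contra hlt
    rw [not_le] at hlt
    obtain ⟨δ, hδ, h1⟩ := Metric.continuousOn_iff.1 hIcont Vs hVs0 ((-J - I Vs) / 2)
      (by linarith)
    obtain ⟨g, hg, h2, -, h3⟩ := hseq (min δ ((-J - I Vs) / 2)) (lt_min hδ (by linarith))
    have h4 := h1 (V1 G g) (sliceh_V1_nonneg G g)
      (by rw [Real.dist_eq]; exact h3.trans_le (min_le_left _ _))
    rw [Real.dist_eq] at h4
    have h5 := (abs_lt.1 h4).2
    have h6 := min_le_right δ ((-J - I Vs) / 2)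
    have h7 := hper g
    linarith
  obtain ⟨Rs, hRs0, hRs⟩ := exists_VR (n := n) (k := k) (by omega) hk hVs0
  have hRsp : 0 < Rs := by
    rcases hRs0.eq_or_lt with h0 | h0
    · rw [← h0, VR_zero] at hRs
      rw [← hRs, hIz] at hIVs
      linarith
    · exact h0
  have hpos : ∀ j : ℕ, (0 : ℝ) < 1 / ((j : ℝ) + 1) := fun j => by positivity
  choose g hg hgJ hgl hgV using fun j : ℕ => hseq (1 / ((j : ℝ) + 1)) (hpos j)
  have h0 : Tendsto (fun j : ℕ => 1 / ((j : ℝ) + 1)) U (𝓝 0) :=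
    tendsto_one_div_add_atTop_nhds_zero_nat.mono_left hU
  refine ⟨J, Rs, hJ0, hRsp, g, ⟨hg, hJ, ?_, ?_, ?_⟩, ?_⟩
  · have h1 : Tendsto (fun j : ℕ => J + 1 / ((j : ℝ) + 1)) U (𝓝 J) := by
      simpa using h0.const_add J
    exact tendsto_of_tendsto_of_tendsto_of_le_of_le tendsto_const_nhds h1
      (fun j => hJ _ (hg j)) (fun j => (hgJ j).le)
  · exact tendsto_of_tendsto_of_tendsto_of_le_of_le tendsto_const_nhds h0
      (fun j => measureReal_nonneg) (fun j => (hgl j).le)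
  · rw [hRs]
    rw [tendsto_iff_dist_tendsto_zero]
    exact tendsto_of_tendsto_of_tendsto_of_le_of_le tendsto_const_nhds h0
      (fun j => dist_nonneg) (fun j => by rw [Real.dist_eq]; exact (hgV j).le)
  · refine ⟨J + 1 + I (G.vol.real {x | ‖G.lg o x‖ ≤ ρ}), fun j => ?_⟩
    have h1 := hImono (sliceh_V1_nonneg G (g j)) (measureReal_nonneg) (sliceh_V1_le G (hg j))
    have h2 := hgJ j
    have h3 : 1 / ((j : ℝ) + 1) ≤ 1 := by
      rw [div_le_one (by positivity)]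
      linarith [(Nat.cast_nonneg j : (0 : ℝ) ≤ j)]
    linarith

/-- **If the isoperimetric inequality fails**, there is a limit measure with too small mass. -/
theorem exists_lim_of_neg (hn : 2 ≤ n) (hk : 0 ≤ k) {I : ℝ → ℝ}
    (hImono : MonotoneOn I (Ici 0)) (hIcont : ContinuousOn I (Ici 0))
    (hI0 : ∀ V, 0 ≤ V → 0 ≤ I V) (hIz : I 0 = 0) (hIR : ∀ R, 0 ≤ R → I (VR n k R) = AR n k R)
    (o : E n) (ρ : ℝ) {h : E n → ℝ} (hh : G.Cls o ρ h) (hneg : G.per h - I (V1 G h) < 0)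
    {U : Ultrafilter ℕ} (hU : (U : Filter ℕ) ≤ atTop) :
    ∃ J Rs : ℝ, 0 < Rs ∧ 0 < VR n k Rs ∧ ∃ (g : ℕ → E n → ℝ) (V : Measure (E n × E n)),
      MinSeq G o ρ I J (VR n k Rs) U g ∧ IsLim G o ρ U g V ∧ 0 < V.real univ ∧
      V.real univ < AR n k Rs := by
  obtain ⟨J, Rs, hJ, hRs, g, hg, C, hC⟩ := exists_minSeq G hn hk hImono hIcont hI0 hIz o ρ hh
    hneg hU
  have hVR : 0 < VR n k Rs := by
    have h1 := (VR_strictMonoOn (n := n) (k := k) (by omega) hk) (mem_Ici.2 le_rfl)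
      (mem_Ici.2 hRs.le) hRs
    rwa [VR_zero] at h1
  obtain ⟨V, hV⟩ := exists_isLim G hg.cls hC U
  refine ⟨J, Rs, hRs, hVR, g, V, hg, hV, mass_pos G (by omega) hVR hg hV, ?_⟩
  rw [mass_eq G hIcont hVR.le hg hV, hIR Rs hRs.le]
  linarith

/-- The final arithmetic. -/
theorem AR_le_of_main (hn : 2 ≤ n) (hk : 0 ≤ k) {R v s : ℝ} (hR : 0 < R) (hv : 0 ≤ v)
    (hs : s = sig n)
    (h : s ^ (2 / ((n : ℝ) - 1)) ≤
      (H0 n k R ^ 2 / ((n : ℝ) - 1) ^ 2 - k ^ 2) * v ^ (2 / ((n : ℝ) - 1))) :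
    AR n k R ≤ v := by
  have hsn := sn_pos hk hR
  have hsig : 0 < sig n := sig_pos (by omega)
  have hn2 : (2 : ℝ) ≤ n := by exact_mod_cast hn
  have hm : 0 < (n : ℝ) - 1 := by linarith
  have h1 : H0 n k R ^ 2 / ((n : ℝ) - 1) ^ 2 - k ^ 2 = (sn k R ^ 2)⁻¹ := by
    have e1 : cs k R ^ 2 - k ^ 2 * sn k R ^ 2 = 1 := by
      unfold cs sn
      split_ifs with hk0
      · rw [hk0]; simp
      · have := Real.cosh_sq (k * R)
        rw [div_pow]
        field_simp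
        linarith
    unfold H0
    rw [eq_comm, inv_eq_iff_eq_inv, eq_comm, inv_eq_iff_eq_inv]
    field_simp
    linarith
  rw [h1, hs] at h
  have h2 : sig n ^ (2 / ((n : ℝ) - 1)) * sn k R ^ 2 ≤ v ^ (2 / ((n : ℝ) - 1)) := by
    have h3 := mul_le_mul_of_nonneg_right h (by positivity : 0 ≤ sn k R ^ 2)
    calc sig n ^ (2 / ((n : ℝ) - 1)) * sn k R ^ 2
        ≤ (sn k R ^ 2)⁻¹ * v ^ (2 / ((n : ℝ) - 1)) * sn k R ^ 2 := h3
      _ = v ^ (2 / ((n : ℝ) - 1)) := by field_simp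
  have h3 : sig n ^ (2 / ((n : ℝ) - 1)) * sn k R ^ 2 = AR n k R ^ (2 / ((n : ℝ) - 1)) := by
    unfold AR
    rw [Real.mul_rpow hsig.le (by positivity), ← Real.rpow_natCast (sn k R) (n - 1),
      ← Real.rpow_mul hsn.le, Nat.cast_sub (by omega : 1 ≤ n)]
    congr 1
    rw [Nat.cast_one, mul_div_cancel₀ _ hm.ne', ← Real.rpow_natCast]
    norm_num
  rw [h3] at h2
  exact (Real.rpow_le_rpow_iff (AR_pos (by omega) hk hR).le hv (by positivity)).1 h2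

end Vale.Agent.P219.SA
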