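import Vale.Agent.P219.SA.Mk
import Vale.Agent.P219.SA.Neg
import Vale.Agent.P219.SA.Dens
import Vale.Agent.P219.End.St
import Vale.Agent.P219.End.StKap
import Vale.Agent.P219.End.BaryMono

/-! # P219, all dimensions: the limit object of a minimising sequence; the functional inequality -/

open MeasureTheory Set Metric Filter Topology
open scoped ENNReal NNReal ContDiff

namespace Vale.Agent.P219.SA

open Vale.Agent.P219.TP Vale.Agent.P219.TPH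
open Vale.Agent.P219.End (FG ff sg KS Lim Gam bub)

variable {n : ℕ} (G : Geo n)

theorem stat_FG (hn : 2 ≤ n) {k κ : ℝ} (hκ : 0 ≤ κ) (hG : MonoSn G κ) {o : E n} {ρ : ℝ}
    {I : ℝ → ℝ} {J Vs : ℝ} {U : Ultrafilter ℕ} {R : ℝ} (hk : 0 ≤ k) (hR : 0 < R)
    {h : ℕ → E n → ℝ} {V : Measure (E n × E n)} (hImono : MonotoneOn I (Ici 0)) (hVs : 0 < Vs)
    (hId : HasStrictDerivAt I (H0 n k R) Vs) (hm : MinSeq G o ρ I J Vs U h)
    (hV : IsLim G o ρ U h V) (c : E n)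
    (hc : ‖G.lg o c‖ ≤ ρ) (ψ : E n → ℝ) (hψ : ContDiff ℝ ∞ ψ) (hψ0 : ∀ x, 0 ≤ ψ x) :
    0 ≤ ∫ z, dF G κ (H0 n k R) c ψ z ∂V := by
  have h1 := End.st_stat G hn hκ hG hImono hVs (H0_nonneg hn hk hR) hId hm hV hc hψ hψ0
  rw [End.Fk_eq_FG'] at h1
  exact h1

/-- **The limit object.** -/
theorem exists_Lim (hn : 4 ≤ n) {k : ℝ} (hk : 0 ≤ k) (hG : MonoSn G k) {o : E n} {ρ : ℝ}
    {I : ℝ → ℝ} {J R : ℝ} {U : Ultrafilter ℕ}
    {h : ℕ → E n → ℝ} {V : Measure (E n × E n)} (hImono : MonotoneOn I (Ici 0)) (hR : 0 < R)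
    (hId : HasStrictDerivAt I (H0 n k R) (VR n k R)) (hm : MinSeq G o ρ I J (VR n k R) U h)
    (hV : IsLim G o ρ U h V) (hne : 0 < V.real univ)
    (hdens : ∀ p, (∀ e > 0, 0 < V {z | FG G k p z.1 < e}) → ∀ e > 0, ∃ ε₀ > 0, ∀ ε, 0 < ε →
      ε < ε₀ → sg ((n : ℝ) - 1) - e ≤ ∫ z, bub (k ^ 2) (FG G k p) ε z.1 ^ ((n : ℝ) - 1) ∂V) :
    ∃ L : Lim n, L.m = (n : ℝ) - 1 ∧ L.k2 = k ^ 2 ∧ L.H0 = H0 n k R ∧ L.V = V ∧
      L.F = FG G k ∧ L.K = {x | ‖G.lg o x‖ ≤ ρ} ∧ L.A = G.A := by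
  have hn4 : (4 : ℝ) ≤ n := by exact_mod_cast hn
  have := hV.fin
  have hVR : 0 < VR n k R := by
    have h1 := (VR_strictMonoOn (n := n) (k := k) (by omega) hk) (mem_Ici.2 le_rfl)
      (mem_Ici.2 hR.le) hR
    rwa [VR_zero] at h1
  have hae : ∀ᵐ z ∂V, ‖G.lg o z.1‖ ≤ ρ ∧ ‖z.2‖ = 1 := by
    have h1 : ∀ᵐ z ∂V, z ∈ KS G o ρ := by
      rw [ae_iff]
      exact hV.supp
    filter_upwards [h1] with z hz
    exact ⟨hz.1, by simpa using hz.2⟩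
  have hVne : V ≠ 0 := by
    rintro rfl
    simp at hne
  have hst := stat_FG G (by omega) hk hG hk hR hImono hVR hId hm hV
  refine ⟨{
    m := (n : ℝ) - 1
    k2 := k ^ 2
    H0 := H0 n k R
    A := G.A
    F := FG G k
    K := {x | ‖G.lg o x‖ ≤ ρ}
    V := V
    three_le := by linarith
    k2_nonneg := by positivity
    A_cont := G.A_smooth.continuous
    F_smooth := End.FG_smooth G k
    F_nonneg := End.FG_nonneg G k
    F_self := End.FG_self G k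
    F_comm := End.FG_comm G k
    F_pos := fun c x hcx => End.FG_pos G k hk hcx
    tri := tri_FG G hk
    grad := End.norm_D_FG G k
    K_compact := G.isCompact_gball o ρ
    V_fin := hV.fin
    V_supp := hae
    V_ne := hVne
    stat := hst
    dens := hdens
    bary := End.bary_of_mono G hn hk hG hae hVne hst }, rfl, rfl, rfl, rfl, rfl, rfl, rfl⟩

/-- The density field from the half-mass points (statement of `dens_field_of`). -/
def DensFieldStmt (n : ℕ) : Prop :=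
  ∀ (G : Geo n) {k : ℝ}, 0 ≤ k → ∀ {o : E n} {ρ H : ℝ}, 0 < ρ → 0 ≤ H →
    ∀ {V : Measure (E n × E n)} [IsFiniteMeasure V], V (KS G o ρ)ᶜ = 0 →
    (∀ c, ‖G.lg o c‖ ≤ ρ → ∀ ψ : E n → ℝ, ContDiff ℝ ∞ ψ → (∀ x, 0 ≤ ψ x) →
      0 ≤ ∫ z, dF G 0 H c ψ z ∂V) →
    (∀ x, (∀ e > 0, 0 < V {z | ‖G.lg x z.1‖ < e}) → ∀ e > 0, ∀ T : ℝ, ∃ c, ‖G.lg o c‖ ≤ ρ ∧
      ‖G.lg x c‖ < e ∧ ∃ t ≥ T, 0 < t ∧ 1 - e ≤ (t / Real.pi) ^ (((n : ℝ) - 1) / 2) *
        ∫ z, Real.exp (-t * ‖G.lg c z.1‖ ^ 2) ∂V) →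
    ∀ p, (∀ e > 0, 0 < V {z | FG G k p z.1 < e}) → ∀ e > 0, ∃ ε₀ > 0, ∀ ε, 0 < ε → ε < ε₀ →
      sg ((n : ℝ) - 1) - e ≤ ∫ z, bub (k ^ 2) (FG G k p) ε z.1 ^ ((n : ℝ) - 1) ∂V

/-- **The limit object**, all fields proved. -/
theorem exists_Lim' (hdf : DensFieldStmt n) (hn : 4 ≤ n) {k : ℝ} (hk : 0 ≤ k)
    (hG : MonoSn G k) {o : E n} {ρ : ℝ}
    (hρ : 0 < ρ) {I : ℝ → ℝ} {J R : ℝ} {U : Ultrafilter ℕ}
    {h : ℕ → E n → ℝ} {V : Measure (E n × E n)} (hImono : MonotoneOn I (Ici 0))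
    (hIcont : ContinuousOn I (Ici 0)) (hR : 0 < R)
    (hId : HasStrictDerivAt I (H0 n k R) (VR n k R)) (hm : MinSeq G o ρ I J (VR n k R) U h)
    (hV : IsLim G o ρ U h V) (hne : 0 < V.real univ) :
    ∃ L : Lim n, L.m = (n : ℝ) - 1 ∧ L.k2 = k ^ 2 ∧ L.H0 = H0 n k R ∧ L.V = V ∧
      L.F = FG G k ∧ L.K = {x | ‖G.lg o x‖ ≤ ρ} ∧ L.A = G.A := by
  have hVR : 0 < VR n k R := by
    have h1 := (VR_strictMonoOn (n := n) (k := k) (by omega) hk) (mem_Ici.2 le_rfl)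
      (mem_Ici.2 hR.le) hR
    rwa [VR_zero] at h1
  have := hV.fin
  refine exists_Lim G hn hk hG hImono hR hId hm hV hne
    (hdf G hk hρ (H0_nonneg (by omega) hk hR) hV.supp
      (stat_FG G (by omega) le_rfl (MonoSn.zero G) hk hR hImono hVR hId hm hV) ?_)
  intro x hx e he T
  exact dens_lim G (by omega) hImono hIcont hm hV x hx he T

/-- The deficit is nonnegative. -/
theorem deficit_nonneg_of (hdf : DensFieldStmt n) (hn : 4 ≤ n) {k : ℝ} (hk : 0 ≤ k)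
    (hmain : ∀ L : Lim n, sg L.m ^ (2 / L.m) ≤
      (L.H0 ^ 2 / L.m ^ 2 - L.k2) * L.V.real univ ^ (2 / L.m))
    (hG : MonoSn G k) {I : ℝ → ℝ} (hImono : MonotoneOn I (Ici 0))
    (hIcont : ContinuousOn I (Ici 0)) (hI0 : ∀ V, 0 ≤ V → 0 ≤ I V) (hIz : I 0 = 0)
    (hIR : ∀ R, 0 ≤ R → I (VR n k R) = AR n k R)
    (hId : ∀ R, 0 < R → HasStrictDerivAt I (H0 n k R) (VR n k R)) (o : E n) {ρ : ℝ}
    (hρ : 0 < ρ) {h : E n → ℝ} (hh : G.Cls o ρ h) : 0 ≤ G.per h - I (V1 G h) := by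
  by_contra hneg
  rw [not_le] at hneg
  obtain ⟨J, R, hR, -, g, V, hm, hV, hpos, hlt⟩ := exists_lim_of_neg G (by omega) hk hImono
    hIcont hI0 hIz hIR o ρ hh hneg (U := Filter.hyperfilter ℕ) (by
      rw [← Nat.cofinite_eq_atTop]
      exact Filter.hyperfilter_le_cofinite)
  obtain ⟨L, h1, h2, h3, h4, -, -, -⟩ := exists_Lim' G hdf hn hk hG hρ hImono hIcont hR
    (hId R hR) hm hV hpos
  have h5 := hmain L
  rw [h1, h2, h3, h4] at h5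
  have h6 := AR_le_of_main (by omega) hk hR measureReal_nonneg (sg_eq_sig (by omega)) h5
  linarith

/-- **The functional isoperimetric inequality**, from Theorem W. -/
theorem funcIso_of (hdf : DensFieldStmt n) (hn : 4 ≤ n) {k : ℝ} (hk : 0 ≤ k)
    (hmain : ∀ L : Lim n, sg L.m ^ (2 / L.m) ≤
      (L.H0 ^ 2 / L.m ^ 2 - L.k2) * L.V.real univ ^ (2 / L.m)) : FuncIso n k := by
  intro G hG h hh hc h01 R hR hV
  obtain ⟨I, hImono, hIcont, hI0, hIz, hIR, hId⟩ :=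
    exists_profile (n := n) (k := k) (by omega) hk
  obtain ⟨L, hL⟩ := exists_lg_bound G hc 0
  have hcls : G.Cls 0 (max L 1) h := by
    refine ⟨hh, fun x => (h01 x).1, fun x => (h01 x).2, fun x hx => ?_⟩
    exact (hL x (subset_tsupport h hx)).trans (le_max_left _ _)
  have h1 := deficit_nonneg_of G hdf hn hk hmain hG hImono hIcont hI0 hIz hIR hId 0
    (by positivity) hcls
  have hVR0 : 0 ≤ VR n k R := by
    have h2 := (VR_strictMonoOn (n := n) (k := k) (by omega) hk).monotoneOn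
      (mem_Ici.2 le_rfl) (mem_Ici.2 hR) hR
    rwa [VR_zero] at h2
  have h3 : I (VR n k R) ≤ I (V1 G h) := hImono hVR0 (mem_Ici.2 measureReal_nonneg) hV
  rw [hIR R hR] at h3
  linarith

end Vale.Agent.P219.SA
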