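import Vale.Agent.P219.End.Frames
import Vale.Agent.P219.TP.Conv

/-! # The hyperbolic law of cosines and the midpoint inequality in a Cartan-Hadamard geometry

`law_cos`: `cosh (k d(p,y)) ≥ cosh kr cosh kR - sinh kr sinh kR cos ∠` for the angle at `c`.
`exists_mid`: the midpoint comparison for `F = (cosh (k r) - 1) / k²`.
-/

open MeasureTheory Set Metric Filter Topology
open scoped ENNReal ContDiff

namespace Vale.Agent.P219.SA

open Vale.Agent.P219.TP Vale.Agent.P219.TPH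
open Vale.Agent.P219.End hiding E D

variable {n : ℕ}

theorem mid_sq {a b : ℝ} (h : a ^ 2 ≤ b ^ 2) (hb : 0 ≤ b) : a ≤ b := by
  by_contra hc
  rw [not_le] at hc
  nlinarith

theorem mid_quad {A B C : ℝ} (hA : 0 ≤ A) (hB : 0 ≤ B) (h : C ^ 2 ≤ A * B) :
    0 ≤ A + B + 2 * C := by
  have h1 : (-(2 * C)) ^ 2 ≤ (A + B) ^ 2 := by nlinarith [sq_nonneg (A - B)]
  have h2 := mid_sq h1 (add_nonneg hA hB)
  linarith

/-- Comparison with `cosh` for a function on a line. -/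
theorem mid_ode {f f' : ℝ → ℝ} {lam : ℝ} (hlam : 0 ≤ lam) (hf : ∀ t, HasDerivAt f (f' t) t)
    (h0 : f 0 = 1) (hb : ∀ t, f' t ^ 2 ≤ lam ^ 2 * (f t ^ 2 - 1)) : f 1 ≤ Real.cosh lam := by
  have key : ∀ δ : ℝ, 0 < δ → f 1 ≤ Real.cosh (lam + δ + δ) := by
    intro δ hδ
    have hB : ∀ x : ℝ, HasDerivAt (fun s : ℝ => Real.cosh ((lam + δ) * s + δ))
        (Real.sinh ((lam + δ) * x + δ) * (lam + δ)) x := by
      intro x
      have h1 : HasDerivAt (fun s : ℝ => (lam + δ) * s + δ) (lam + δ) x := by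
        simpa using ((hasDerivAt_id x).const_mul (lam + δ)).add_const δ
      exact h1.cosh
    have hmain := image_le_of_deriv_right_lt_deriv_boundary (f := f) (f' := f') (a := 0) (b := 1)
      (fun x _ => (hf x).continuousAt.continuousWithinAt)
      (fun x _ => (hf x).hasDerivWithinAt)
      (B := fun s : ℝ => Real.cosh ((lam + δ) * s + δ))
      (B' := fun x => Real.sinh ((lam + δ) * x + δ) * (lam + δ))
      (by rw [h0]; exact Real.one_le_cosh _) hB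
      (fun x hx hfx => by
        have hθ : 0 < (lam + δ) * x + δ := by
          have : 0 ≤ (lam + δ) * x := mul_nonneg (by linarith) hx.1
          linarith
        have hs : 0 < Real.sinh ((lam + δ) * x + δ) := Real.sinh_pos_iff.2 hθ
        have h1 := hb x
        rw [hfx, Real.cosh_sq] at h1
        have h2 : f' x ^ 2 ≤ (lam * Real.sinh ((lam + δ) * x + δ)) ^ 2 := by
          rw [mul_pow]
          linarith
        have h3 : f' x ≤ lam * Real.sinh ((lam + δ) * x + δ) :=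
          mid_sq h2 (mul_nonneg hlam hs.le)
        have h4 : lam * Real.sinh ((lam + δ) * x + δ) <
            Real.sinh ((lam + δ) * x + δ) * (lam + δ) := by nlinarith
        exact h3.trans_lt h4)
    have h1 := hmain (x := 1) ⟨zero_le_one, le_rfl⟩
    simpa using h1
  have hc : Tendsto (fun δ : ℝ => Real.cosh (lam + δ + δ)) (𝓝[>] 0) (𝓝 (Real.cosh lam)) := by
    have h1 : Continuous fun δ : ℝ => Real.cosh (lam + δ + δ) :=
      Real.continuous_cosh.comp (by fun_prop)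
    have h2 := h1.tendsto 0
    simp only [add_zero] at h2
    exact h2.mono_left nhdsWithin_le_nhds
  refine ge_of_tendsto hc ?_
  filter_upwards [self_mem_nhdsWithin] with δ hδ
  exact key δ hδ

/-- `cosh (k d)` for the points at `a`, `v` in the hyperbolic picture. -/
noncomputable def hyp (k : ℝ) (a v : E n) : ℝ :=
  cs k ‖a‖ * cs k ‖v‖ - k ^ 2 * (chi k (‖a‖ ^ 2) * chi k (‖v‖ ^ 2) * inner ℝ a v)

/-- its differential -/
noncomputable def hypD (k : ℝ) (a v z : E n) : ℝ :=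
  cs k ‖a‖ * (k ^ 2 * (chi k (‖v‖ ^ 2) * inner ℝ v z)) -
    k ^ 2 * (chi k (‖a‖ ^ 2) * (2 * deriv (chi k) (‖v‖ ^ 2) * inner ℝ v z * inner ℝ a v +
      chi k (‖v‖ ^ 2) * inner ℝ a z))

theorem hyp_self (k : ℝ) (a : E n) : hyp k a a = 1 := by
  unfold hyp
  have h1 := cs_sq k ‖a‖
  have h2 := sn_eq_chi k ‖a‖
  rw [h2] at h1
  rw [real_inner_self_eq_norm_sq]
  linear_combination h1

theorem hasDerivAt_hyp (k : ℝ) (a : E n) {v : ℝ → E n} {z : E n} {t : ℝ}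
    (hv : HasDerivAt v z t) :
    HasDerivAt (fun t => hyp k a (v t)) (hypD k a (v t) z) t := by
  have h1 : HasDerivAt (fun t => ‖v t‖ ^ 2) (2 * inner ℝ (v t) z) t := hv.norm_sq
  have h2 : HasDerivAt (fun t => ff k (‖v t‖ ^ 2))
      (chi k (‖v t‖ ^ 2) / 2 * (2 * inner ℝ (v t) z)) t :=
    HasDerivAt.comp (h₂ := ff k) t (hasDerivAt_ff_sq k (sq_nonneg _)) h1
  have h3 : HasDerivAt (chi k) (deriv (chi k) (‖v t‖ ^ 2)) (‖v t‖ ^ 2) :=
    ((chi_smooth k).differentiable (by simp) _).hasDerivAt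
  have h4 : HasDerivAt (fun t => chi k (‖v t‖ ^ 2))
      (deriv (chi k) (‖v t‖ ^ 2) * (2 * inner ℝ (v t) z)) t :=
    HasDerivAt.comp (h₂ := chi k) t h3 h1
  have h5 : HasDerivAt (fun t => inner ℝ a (v t)) (inner ℝ a z) t := by
    have := (hasDerivAt_const t a).inner ℝ hv
    simpa using this
  have h6 : HasDerivAt (fun t => cs k ‖v t‖)
      (k ^ 2 * (chi k (‖v t‖ ^ 2) / 2 * (2 * inner ℝ (v t) z))) t := by
    have h7 := (h2.const_mul (k ^ 2)).const_add 1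
    have e : (fun t => cs k ‖v t‖) = fun t => 1 + k ^ 2 * ff k (‖v t‖ ^ 2) := by
      funext t
      exact cs_eq_ff k _
    rw [e]
    exact h7
  have h8 := ((h6.const_mul (cs k ‖a‖)).fun_sub
    (((h4.fun_mul h5).const_mul (chi k (‖a‖ ^ 2))).const_mul (k ^ 2)))
  have e : (fun t => hyp k a (v t)) = fun t => cs k ‖a‖ * cs k ‖v t‖ -
      k ^ 2 * (chi k (‖a‖ ^ 2) * (chi k (‖v t‖ ^ 2) * inner ℝ a (v t))) := by
    funext t
    unfold hyp
    ring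
  rw [e]
  refine h8.congr_deriv ?_
  unfold hypD
  ring

/-- The gradient bound. -/
theorem hypD_sq (G : Geo n) {k : ℝ} (hk : 0 ≤ k) (hS : SnLe G k) (c a v z : E n) :
    hypD k a v z ^ 2 ≤ k ^ 2 * (hyp k a v ^ 2 - 1) * ‖G.T c v z‖ ^ 2 := by
  have hca : cs k ‖a‖ ^ 2 = 1 + k ^ 2 * (chi k (‖a‖ ^ 2) ^ 2 * ‖a‖ ^ 2) := by
    rw [cs_sq, sn_eq_chi]
    ring
  by_cases hv : v = 0
  · subst hv
    rw [G.T_zero]
    have h1 : hypD k a 0 z = -(k ^ 2 * (chi k (‖a‖ ^ 2) * inner ℝ a z)) := by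
      unfold hypD
      rw [norm_zero, zero_pow two_ne_zero, chi_zero, inner_zero_left, inner_zero_right]
      ring
    have h2 : hyp k a 0 = cs k ‖a‖ := by
      unfold hyp
      rw [norm_zero, cs_zero, inner_zero_right]
      ring
    rw [h1, h2, hca]
    have h3 : inner ℝ a z ^ 2 ≤ ‖a‖ ^ 2 * ‖z‖ ^ 2 := by
      rw [← mul_pow]
      exact sq_le_sq' (by linarith [neg_le_of_abs_le (abs_real_inner_le_norm a z)])
        (real_inner_le_norm a z)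
    have h4 : 0 ≤ k ^ 4 * chi k (‖a‖ ^ 2) ^ 2 := by positivity
    nlinarith [mul_le_mul_of_nonneg_left h3 h4]
  · have hr : 0 < ‖v‖ := norm_pos_iff.2 hv
    have hr2 : 0 < ‖v‖ ^ 2 := by positivity
    have hcs : cs k ‖v‖ ^ 2 = 1 + k ^ 2 * sn k ‖v‖ ^ 2 := cs_sq k _
    have hsn := sn_eq_chi k ‖v‖
    have hcc := cs_eq_chi k ‖v‖
    have hT := T_lower G hk hS c v z hv
    obtain ⟨χa, hχa⟩ : ∃ χa, χa = chi k (‖a‖ ^ 2) := ⟨_, rfl⟩
    obtain ⟨χ, hχ⟩ : ∃ χ, χ = chi k (‖v‖ ^ 2) := ⟨_, rfl⟩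
    obtain ⟨χ', hχ'⟩ : ∃ χ', χ' = deriv (chi k) (‖v‖ ^ 2) := ⟨_, rfl⟩
    -- orthogonal parts
    obtain ⟨b, hb⟩ : ∃ b : ℝ, b = inner ℝ v z := ⟨_, rfl⟩
    obtain ⟨α, hα⟩ : ∃ α : ℝ, α = χa * inner ℝ a v := ⟨_, rfl⟩
    obtain ⟨β, hβ⟩ : ∃ β : ℝ, β = χa * inner ℝ a z := ⟨_, rfl⟩
    have hg : (β - α * b / ‖v‖ ^ 2) ^ 2 ≤
        (χa ^ 2 * ‖a‖ ^ 2 - α ^ 2 / ‖v‖ ^ 2) * (‖z‖ ^ 2 - b ^ 2 / ‖v‖ ^ 2) := by
      have e1 : inner ℝ (χa • a - (α / ‖v‖ ^ 2) • v) (z - (b / ‖v‖ ^ 2) • v) =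
          β - α * b / ‖v‖ ^ 2 := by
        rw [inner_sub_left, inner_sub_right, inner_sub_right]
        simp only [real_inner_smul_left, real_inner_smul_right]
        rw [real_inner_self_eq_norm_sq, ← hb, hα, hβ]
        field_simp
        ring
      have e2 : ‖χa • a - (α / ‖v‖ ^ 2) • v‖ ^ 2 = χa ^ 2 * ‖a‖ ^ 2 - α ^ 2 / ‖v‖ ^ 2 := by
        rw [norm_sub_sq_real, norm_smul, norm_smul]
        simp only [real_inner_smul_left, real_inner_smul_right]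
        rw [mul_pow, mul_pow, Real.norm_eq_abs, Real.norm_eq_abs, sq_abs, sq_abs, hα]
        field_simp
        ring
      have e3 : ‖z - (b / ‖v‖ ^ 2) • v‖ ^ 2 = ‖z‖ ^ 2 - b ^ 2 / ‖v‖ ^ 2 := by
        rw [norm_sub_sq_real, norm_smul]
        simp only [real_inner_smul_right]
        rw [mul_pow, Real.norm_eq_abs, sq_abs, real_inner_comm v z, ← hb]
        field_simp
        ring
      rw [← e1, ← e2, ← e3, ← mul_pow]
      exact sq_le_sq' (by linarith [neg_le_of_abs_le (abs_real_inner_le_norm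
        (χa • a - (α / ‖v‖ ^ 2) • v) (z - (b / ‖v‖ ^ 2) • v))]) (real_inner_le_norm _ _)
    obtain ⟨γ, hγ⟩ : ∃ γ, γ = β - α * b / ‖v‖ ^ 2 := ⟨_, rfl⟩
    obtain ⟨w2, hw2⟩ : ∃ w2, w2 = χa ^ 2 * ‖a‖ ^ 2 - α ^ 2 / ‖v‖ ^ 2 := ⟨_, rfl⟩
    obtain ⟨ζ2, hζ2⟩ : ∃ ζ2, ζ2 = ‖z‖ ^ 2 - b ^ 2 / ‖v‖ ^ 2 := ⟨_, rfl⟩
    have hw0 : 0 ≤ w2 := by
      rw [hw2, sub_nonneg, div_le_iff₀ hr2, hα, mul_pow, mul_assoc, ← mul_pow ‖a‖]
      exact mul_le_mul_of_nonneg_left (sq_le_sq'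
        (by linarith [neg_le_of_abs_le (abs_real_inner_le_norm a v)]) (real_inner_le_norm a v))
        (sq_nonneg _)
    have hζ0 : 0 ≤ ζ2 := by
      rw [hζ2, sub_nonneg, div_le_iff₀ hr2, hb, ← mul_pow, mul_comm ‖z‖]
      exact sq_le_sq' (by linarith [neg_le_of_abs_le (abs_real_inner_le_norm v z)])
        (real_inner_le_norm v z)
    rw [← hγ, ← hw2, ← hζ2] at hg
    obtain ⟨P, hP⟩ : ∃ P, P = cs k ‖a‖ * (‖v‖ * χ) - α / ‖v‖ * cs k ‖v‖ := ⟨_, rfl⟩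
    have hD : hypD k a v z = k ^ 2 * (b / ‖v‖ * P - χ * γ) := by
      unfold hypD
      rw [hP, hγ, hcc, ← hχ, ← hχ', ← hχa, ← hb, hα, hβ]
      field_simp
      ring
    have hH : k ^ 2 * (P ^ 2 + w2) = hyp k a v ^ 2 - 1 := by
      have e1 : hyp k a v = cs k ‖a‖ * cs k ‖v‖ - k ^ 2 * (‖v‖ * χ) * (α / ‖v‖) := by
        unfold hyp
        rw [← hχ, ← hχa, hα]
        field_simp
      have e2 : w2 = χa ^ 2 * ‖a‖ ^ 2 - (α / ‖v‖) ^ 2 := by rw [hw2, div_pow]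
      rw [hsn, ← hχ] at hcs
      rw [← hχa] at hca
      rw [e1, e2, hP]
      linear_combination (-(cs k ‖a‖ ^ 2) + k ^ 2 * (α / ‖v‖) ^ 2) * hcs - hca
    have hC : (b / ‖v‖ * P - χ * γ) ^ 2 ≤ (P ^ 2 + w2) * ((b / ‖v‖) ^ 2 + χ ^ 2 * ζ2) := by
      have h1 := mid_quad (A := P ^ 2 * χ ^ 2 * ζ2) (B := w2 * (b / ‖v‖) ^ 2)
        (C := b / ‖v‖ * P * χ * γ) (by positivity) (by positivity) (by
          have h2 : 0 ≤ (b / ‖v‖) ^ 2 * P ^ 2 * χ ^ 2 := by positivity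
          have h3 := mul_le_mul_of_nonneg_left hg h2
          calc (b / ‖v‖ * P * χ * γ) ^ 2 = (b / ‖v‖) ^ 2 * P ^ 2 * χ ^ 2 * γ ^ 2 := by ring
            _ ≤ (b / ‖v‖) ^ 2 * P ^ 2 * χ ^ 2 * (w2 * ζ2) := h3
            _ = _ := by ring)
      have h4 : 0 ≤ χ ^ 2 * (w2 * ζ2 - γ ^ 2) := mul_nonneg (sq_nonneg _) (by linarith)
      nlinarith
    have hT' : (b / ‖v‖) ^ 2 + χ ^ 2 * ζ2 ≤ ‖G.T c v z‖ ^ 2 := by
      rw [← hb, ← hχ, ← hζ2] at hT
      rw [div_pow]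
      exact hT
    have hH0 : 0 ≤ hyp k a v ^ 2 - 1 := by
      rw [← hH]
      positivity
    calc hypD k a v z ^ 2 = k ^ 2 * (k ^ 2 * (b / ‖v‖ * P - χ * γ) ^ 2) := by rw [hD]; ring
      _ ≤ k ^ 2 * (k ^ 2 * ((P ^ 2 + w2) * ((b / ‖v‖) ^ 2 + χ ^ 2 * ζ2))) := by gcongr
      _ = k ^ 2 * (hyp k a v ^ 2 - 1) * ((b / ‖v‖) ^ 2 + χ ^ 2 * ζ2) := by rw [← hH]; ring
      _ ≤ _ := mul_le_mul_of_nonneg_left hT' (by positivity)

/-- The hyperbolic law of cosines is an inequality in curvature at most `-k²`. -/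
theorem law_cos (G : Geo n) {k : ℝ} (hk : 0 ≤ k) (hS : SnLe G k) (c p y : E n) :
    hyp k (G.lg c p) (G.lg c y) ≤ cs k ‖G.lg p y‖ := by
  have hv : ∀ t : ℝ, HasDerivAt (fun s : ℝ => G.lg c (G.ex p (s • G.lg p y)))
      (fderiv ℝ (G.lg c) (G.ex p (t • G.lg p y))
        (G.A (G.ex p (t • G.lg p y)) (G.V t p (G.lg p y)))) t := by
    intro t
    exact (G.differentiable_lg c (G.ex p (t • G.lg p y))).hasFDerivAt.comp_hasDerivAt t
      (G.ex_deriv t p (G.lg p y))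
  have hT : ∀ t : ℝ, ‖G.T c (G.lg c (G.ex p (t • G.lg p y)))
      (fderiv ℝ (G.lg c) (G.ex p (t • G.lg p y))
        (G.A (G.ex p (t • G.lg p y)) (G.V t p (G.lg p y))))‖ = ‖G.lg p y‖ := by
    intro t
    obtain ⟨ζ, hζ⟩ := G.T_surjective c (G.lg c (G.ex p (t • G.lg p y))) (G.V t p (G.lg p y))
    rw [← hζ, G.fderiv_lg_T, hζ, G.norm_V]
  have h := mid_ode (f := fun t => hyp k (G.lg c p) (G.lg c (G.ex p (t • G.lg p y))))
    (lam := k * ‖G.lg p y‖) (mul_nonneg hk (norm_nonneg _))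
    (fun t => hasDerivAt_hyp k (G.lg c p) (hv t))
    (by
      simp only [zero_smul, G.ex_zero]
      exact hyp_self k _)
    (fun t => by
      have h1 := hypD_sq G hk hS c (G.lg c p) (G.lg c (G.ex p (t • G.lg p y)))
        (fderiv ℝ (G.lg c) (G.ex p (t • G.lg p y))
          (G.A (G.ex p (t • G.lg p y)) (G.V t p (G.lg p y))))
      rw [hT t] at h1
      calc _ ≤ _ := h1
        _ = _ := by ring)
  simp only [one_smul, G.ex_lg] at h
  exact h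

/-- Midpoint comparison. -/
theorem exists_mid (G : Geo n) {k : ℝ} (hk : 0 ≤ k) (hS : SnLe G k) {o p x : E n} {ρ : ℝ}
    (hp : ‖G.lg o p‖ ≤ ρ) (hx : ‖G.lg o x‖ ≤ ρ) : ∃ c, ‖G.lg o c‖ ≤ ρ ∧ ∀ y,
    √(1 + k ^ 2 * FG G k p x / 2) * FG G k c y +
        FG G k p x / (2 * (√(1 + k ^ 2 * FG G k p x / 2) + 1)) ≤
      (FG G k p y + FG G k x y) / 2 := by
  obtain ⟨c, hc⟩ : ∃ c, c = G.ex p ((1 / 2 : ℝ) • G.lg p x) := ⟨_, rfl⟩
  obtain ⟨v, hv⟩ : ∃ v, v = (1 / 2 : ℝ) • G.V (1 / 2) p (G.lg p x) := ⟨_, rfl⟩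
  have hcρ : ‖G.lg o c‖ ≤ ρ := by
    rw [hc]
    exact G.ball_convex hp hx (by norm_num) (by norm_num)
  have e1 : G.lg c p = -v := by
    have h := G.ex_flow (1 / 2) (-(1 / 2)) p (G.lg p x)
    rw [add_neg_cancel, zero_smul, G.ex_zero, ← hc] at h
    have h' := G.lg_ex c ((-(1 / 2 : ℝ)) • G.V (1 / 2) p (G.lg p x))
    rw [h] at h'
    rw [h', neg_smul, hv]
  have e2 : G.lg c x = v := by
    have h := G.ex_flow (1 / 2) (1 / 2) p (G.lg p x)
    rw [add_halves, one_smul, G.ex_lg, ← hc] at h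
    have h' := G.lg_ex c ((1 / 2 : ℝ) • G.V (1 / 2) p (G.lg p x))
    rw [h] at h'
    rw [h', hv]
  have hn : ‖v‖ = ‖G.lg p x‖ / 2 := by
    rw [hv, norm_smul, G.norm_V]
    norm_num
    ring
  have hF : FG G k p x = 2 * sn k ‖v‖ ^ 2 := by
    unfold FG
    rw [ff_sq, hn]
  have hsq : √(1 + k ^ 2 * FG G k p x / 2) = cs k ‖v‖ := by
    have e : 1 + k ^ 2 * FG G k p x / 2 = cs k ‖v‖ ^ 2 := by
      rw [hF, cs_sq]
      ring
    rw [e]
    exact Real.sqrt_sq (zero_le_one.trans (one_le_cs k _))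
  refine ⟨c, hcρ, fun y => ?_⟩
  rw [hsq]
  have hC1 := one_le_cs k ‖v‖
  rcases hk.eq_or_lt with h0 | h0
  · subst h0
    have hf : ∀ a b : E n, FG G 0 a b = ‖G.lg a b‖ ^ 2 / 2 := by
      intro a b
      unfold FG
      rw [ff_sq, h1_sn_z]
      ring
    have hcs1 : cs 0 ‖v‖ = 1 := by simp [cs]
    have n1 := G.lg_nonexp c p y
    have n2 := G.lg_nonexp c x y
    rw [e1] at n1
    rw [e2] at n2
    have m1 := pow_le_pow_left₀ (norm_nonneg _) n1 2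
    have m2 := pow_le_pow_left₀ (norm_nonneg _) n2 2
    rw [norm_sub_sq_real] at m1 m2
    rw [norm_neg, inner_neg_left] at m1
    rw [hcs1, hf, hf, hf, hf]
    have h3 : ‖G.lg p x‖ = 2 * ‖v‖ := by rw [hn]; ring
    rw [h3]
    nlinarith
  · have h1 := law_cos G hk hS c p y
    have h2 := law_cos G hk hS c x y
    rw [e1] at h1
    rw [e2] at h2
    unfold hyp at h1 h2
    rw [norm_neg, inner_neg_left] at h1
    have hcF : ∀ a b : E n, cs k ‖G.lg a b‖ = 1 + k ^ 2 * FG G k a b := fun a b => cs_eq_ff k _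
    rw [hcF, hcF] at h1 h2
    have h3 : cs k ‖v‖ * (1 + k ^ 2 * FG G k c y) ≤
        1 + k ^ 2 * ((FG G k p y + FG G k x y) / 2) := by
      linarith
    have h4 : k ^ 2 * (FG G k p x / (2 * (cs k ‖v‖ + 1))) = cs k ‖v‖ - 1 := by
      have h5 := cs_sq k ‖v‖
      rw [hF]
      field_simp
      linear_combination (-1 : ℝ) * h5
    have hk2 : 0 < k ^ 2 := by positivity
    refine le_of_mul_le_mul_left ?_ hk2
    calc k ^ 2 * (cs k ‖v‖ * FG G k c y + FG G k p x / (2 * (cs k ‖v‖ + 1)))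
        = cs k ‖v‖ * (k ^ 2 * FG G k c y) + k ^ 2 * (FG G k p x / (2 * (cs k ‖v‖ + 1))) := by ring
      _ = cs k ‖v‖ * (1 + k ^ 2 * FG G k c y) - 1 := by rw [h4]; ring
      _ ≤ k ^ 2 * ((FG G k p y + FG G k x y) / 2) := by linarith

end Vale.Agent.P219.SA
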