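import Vale.Agent.P219.SA.Tri
import Vale.Agent.P219.SA.Pass
import Vale.Agent.P219.SA.Func
import Vale.Agent.P219.End.Basic
import Vale.Agent.P219.End.FvKap

/-! # P219, all dimensions: construction of the limit object -/

open MeasureTheory Set Metric Filter Topology
open scoped ENNReal NNReal ContDiff

namespace Vale.Agent.P219.SA

open Vale.Agent.P219.TP Vale.Agent.P219.TPH
open Vale.Agent.P219.End (FG ff sg KS Lim Gam bub thf q0 SnLe aF bF)

variable {n : ℕ} (G : Geo n)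

/-- The stationarity integrand. -/
noncomputable def dF (k H : ℝ) (c : E n) (ψ : E n → ℝ) (z : E n × E n) : ℝ :=
  H * ψ z.1 * inner ℝ (End.D G.A (FG G k c) z.1) z.2 -
    ((n : ℝ) - 1) * (1 + k ^ 2 * FG G k c z.1) * ψ z.1 - Gam G.A ψ (FG G k c) z

theorem D_FG_continuous (k : ℝ) (c : E n) : Continuous (End.D G.A (FG G k c)) :=
  End.D_continuous G.A_smooth.continuous
    ((End.FG_smooth_right G k c).of_le (by exact_mod_cast le_top))

theorem aF_continuous (k : ℝ) (c : E n) {ψ : E n → ℝ} (hψ : ContDiff ℝ 1 ψ) :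
    Continuous (aF G k ψ c) := by
  have h1 := End.Gam_continuous (A := G.A) G.A_smooth.continuous hψ
    ((End.FG_smooth_right G k c).of_le (by exact_mod_cast le_top))
  have h2 := (End.FG_smooth_right G k c).continuous
  have h3 := hψ.continuous
  unfold aF
  fun_prop

theorem bF_continuous (k : ℝ) (c : E n) {ψ : E n → ℝ} (hψ : ContDiff ℝ 1 ψ) :
    Continuous (bF G k ψ c) := by
  have h2 := D_FG_continuous G k c
  have h3 := hψ.continuous
  unfold bF
  fun_prop

theorem integrable_of_supp {o : E n} {ρ : ℝ} {V : Measure (E n × E n)} [IsFiniteMeasure V]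
    (hV : V (KS G o ρ)ᶜ = 0) {f : E n × E n → ℝ} (hf : Continuous f) : Integrable f V := by
  obtain ⟨C, hC⟩ := (End.isCompact_KS G o ρ).exists_bound_of_continuousOn hf.continuousOn
  refine Integrable.of_bound hf.aestronglyMeasurable C ?_
  have h1 : ∀ᵐ z ∂V, z ∈ KS G o ρ := by
    rw [ae_iff]
    exact hV
  filter_upwards [h1] with z hz
  exact hC z hz

/-- Stationarity in the form of `Lim`. -/
theorem stat_of {o : E n} {ρ : ℝ} {I : ℝ → ℝ} {J Vs H : ℝ} {U : Ultrafilter ℕ}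
    {h : ℕ → E n → ℝ} {V : Measure (E n × E n)} (hImono : MonotoneOn I (Ici 0)) (hVs : 0 < Vs)
    (hH : 0 ≤ H) (hId : HasStrictDerivAt I H Vs) (hm : MinSeq G o ρ I J Vs U h)
    (hV : IsLim G o ρ U h V) {k : ℝ} {c : E n} {ψ : E n → ℝ} (hψ : ContDiff ℝ ∞ ψ)
    (hvar : Var G o ρ (aF G k ψ c) (bF G k ψ c)) : 0 ≤ ∫ z, dF G k H c ψ z ∂V := by
  have hψ1 : ContDiff ℝ 1 ψ := hψ.of_le (by exact_mod_cast le_top)
  have ha := aF_continuous G k c hψ1
  have hb := bF_continuous G k c hψ1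
  have h1 := stat_pass G hImono hVs hH hId hm hV ha.continuousOn hb.continuousOn hvar
  have := hV.fin
  rw [← integral_const_mul, ← integral_sub ((integrable_of_supp G hV.supp hb).const_mul H)
    (integrable_of_supp G hV.supp ha)] at h1
  refine h1.trans_eq (integral_congr_ae (Eventually.of_forall fun z => ?_))
  simp only [aF, bF, dF]
  ring

/-- Energy of the frame. -/
theorem thf_gam {k ε : ℝ} (hk : 0 ≤ k) (hS : SnLe G k) (hε : 0 < ε) (hε2 : k ^ 2 * ε < 2)
    (c : E n) (hn : 1 ≤ n) {z : E n × E n} (hz : ‖z.2‖ = 1) :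
    ∑ i, Gam G.A (thf G k c ε i) (thf G k c ε i) z ≤
      ((n : ℝ) - 1) * bub (k ^ 2) (FG G k c) ε z.1 ^ 2 := by
  obtain ⟨m, rfl⟩ : ∃ m, n = m + 1 := ⟨n - 1, by omega⟩
  obtain ⟨b, hb⟩ : ∃ b : OrthonormalBasis (Fin (m + 1)) ℝ (E (m + 1)), b 0 = z.2 := by
    have h1 : Orthonormal ℝ (({0} : Set (Fin (m + 1))).domRestrict fun _ => z.2) := by
      refine ⟨fun _ => hz, fun i j hij => ?_⟩
      exact absurd (Subsingleton.elim i j) hij
    obtain ⟨b, hb⟩ := h1.exists_orthonormalBasis_extension_of_card_eq (by simp)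
    exact ⟨b, hb 0 rfl⟩
  have h1 : ∀ i, Gam G.A (thf G k c ε i) (thf G k c ε i) z =
      ∑ j : Fin m, (fderiv ℝ (thf G k c ε i) z.1 (G.A z.1 (b j.succ))) ^ 2 := by
    intro i
    have h2 := b.sum_sq_norm_inner_right (End.D G.A (thf G k c ε i) z.1)
    rw [Fin.sum_univ_succ, hb] at h2
    unfold Gam
    rw [real_inner_self_eq_norm_sq, ← h2]
    simp only [Real.norm_eq_abs, sq_abs]
    rw [real_inner_comm z.2]
    have h3 : ∀ j : Fin m, inner ℝ (b j.succ) (End.D G.A (thf G k c ε i) z.1) =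
        fderiv ℝ (thf G k c ε i) z.1 (G.A z.1 (b j.succ)) := by
      intro j
      rw [real_inner_comm, End.inner_D]
    simp only [h3]
    ring
  simp only [h1]
  rw [Finset.sum_comm]
  have h2 : ∀ j : Fin m, ∑ i, (fderiv ℝ (thf G k c ε i) z.1 (G.A z.1 (b j.succ))) ^ 2 ≤
      bub (k ^ 2) (FG G k c) ε z.1 ^ 2 := by
    intro j
    have h3 := End.thf_energy G hk hS hε hε2 c z.1 (b j.succ)
    rw [b.norm_eq_one, one_pow, mul_one] at h3
    exact h3
  calc ∑ j : Fin m, ∑ i, (fderiv ℝ (thf G k c ε i) z.1 (G.A z.1 (b j.succ))) ^ 2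
      ≤ ∑ j : Fin m, bub (k ^ 2) (FG G k c) ε z.1 ^ 2 := Finset.sum_le_sum fun j _ => h2 j
    _ = (((m + 1 : ℕ) : ℝ) - 1) * bub (k ^ 2) (FG G k c) ε z.1 ^ 2 := by
        rw [Finset.sum_const, Finset.card_univ, Fintype.card_fin, nsmul_eq_mul]
        push_cast
        ring

end Vale.Agent.P219.SA
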