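import Vale.Agent.P219.SA.DensField
import Vale.Agent.P219.End.Final
import Vale.Agent.P219.SR.AllN

/-! # P219, dimension at least three: no hypothesis left -/

open MeasureTheory Set Metric Filter Topology
open scoped ENNReal NNReal ContDiff

namespace Vale.Agent.P219

namespace SA

variable {n : ℕ}

theorem densFieldStmt (hn : 2 ≤ n) : DensFieldStmt n :=
  fun G _ hk _ _ _ hρ hH _ _ hV hst hd => dens_field_of G hn hk hρ hH hV hst hd

theorem limSob (n : ℕ) : LimSob n := fun L _ hu hpos => L.sob ⟨hu, hpos⟩

theorem limMk (hn : 4 ≤ n) {k : ℝ} (hk : 0 ≤ k) : LimMk n k :=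
  limMk_of (densFieldStmt (by omega)) hn hk

/-- The functional isoperimetric inequality in every geometry of curvature at most `-k²`. -/
theorem funcIso (hn : 3 ≤ n) {k : ℝ} (hk : 0 ≤ k) : TPH.FuncIso n k := by
  rcases hn.eq_or_lt with rfl | h4
  · exact funcIso_three (densFieldStmt (by omega)) hk
  · exact funcIso_four (densFieldStmt (by omega)) h4 hk (limSob n)

theorem limRig (hn : 3 ≤ n) {k : ℝ} (hk : 0 ≤ k) : LimRig n k := by
  rcases hn.eq_or_lt with rfl | h4
  · exact limRig_three (densFieldStmt (by omega)) hk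
  · exact limRig_four (densFieldStmt (by omega)) h4 hk (limSob n)

end SA

/-- **The generalized Cartan-Hadamard conjecture**, all dimensions at least three, all upper
curvature bounds `K ≤ 0`, with the equality case. -/
theorem Co.allN {n : ℕ} (hn : 3 ≤ n) {K : ℝ} (hK : K ≤ 0) (M : RiemMetric n)
    (hM : GeodesicallyComplete M) (hs : SecLE M K) :
    IsoperimetricIneq M K ∧
      ∀ (D : SmoothDomain n) (r : ℝ), 0 ≤ r →
        riemVol M D.carrier = ENNReal.ofReal (modelVol n K r) →
        riemArea M D = ENNReal.ofReal (modelArea n K r) → IsometricToBallK M K D r :=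
  Co.allN_ge_three hn (SA.densFieldStmt (by omega)) (fun _ => SA.limSob n) hK M hM hs

end Vale.Agent.P219
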