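import Vale.Agent.P219.End.Frames
import Vale.Agent.P219.End.Gamma
import Vale.Agent.P219.TP.CertTools

/-! # P219, all dimensions: geometric fields of the limit object -/

open MeasureTheory Set Metric Filter Topology
open scoped ENNReal NNReal ContDiff

namespace Vale.Agent.P219.SA

open Vale.Agent.P219.TP Vale.Agent.P219.TPH
open Vale.Agent.P219.End (FG ff sg)

variable {n : ℕ}

theorem sn_add (k a b : ℝ) : sn k (a + b) = sn k a * cs k b + cs k a * sn k b := by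
  have h1 : sn k (-b) = -sn k b := by
    unfold sn
    split_ifs
    · rfl
    · rw [mul_neg, Real.sinh_neg, neg_div]
  have h2 : cs k (-b) = cs k b := by
    unfold cs
    rw [mul_neg, Real.cosh_neg]
  have h3 := h1_sub k a (-b)
  rw [h1, h2, sub_neg_eq_add] at h3
  rw [h3]
  ring

theorem cs_add (k a b : ℝ) : cs k (a + b) = cs k a * cs k b + k ^ 2 * (sn k a * sn k b) := by
  unfold cs
  rw [mul_add, Real.cosh_add, ← h1_sinh, ← h1_sinh]
  ring

theorem cs_pos (k r : ℝ) : 0 < cs k r := one_pos.trans_le (one_le_cs k r)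

theorem sqrt_ff {k r : ℝ} (hk : 0 ≤ k) (hr : 0 ≤ r) : √(ff k (r ^ 2)) = √2 * sn k (r / 2) := by
  have hs : 0 ≤ sn k (r / 2) := (by positivity : 0 ≤ r / 2).trans (le_sn hk (by positivity))
  rw [End.ff_sq, Real.sqrt_mul (by norm_num), Real.sqrt_sq hs]

theorem sqrt_one_ff (k r : ℝ) : √(1 + k ^ 2 * ff k (r ^ 2) / 2) = cs k (r / 2) := by
  have h2 : 1 + k ^ 2 * ff k (r ^ 2) / 2 = cs k (r / 2) ^ 2 := by
    rw [cs_sq, End.ff_sq]; ring
  rw [h2, Real.sqrt_sq (cs_pos k _).le]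

theorem norm_lg_tri (G : Geo n) (c x y : E n) : ‖G.lg c x‖ ≤ ‖G.lg c y‖ + ‖G.lg y x‖ := by
  have h1 := G.lg_nonexp c x y
  have h2 := norm_le_norm_sub_add (G.lg c x) (G.lg c y)
  rw [G.norm_lg_comm x y] at h1
  linarith

theorem tri_FG (G : Geo n) {k : ℝ} (hk : 0 ≤ k) (c p x : E n) :
    √(FG G k c x) ≤ √(FG G k p x) * √(1 + k ^ 2 * FG G k c p / 2) +
      √(1 + k ^ 2 * FG G k p x / 2) * √(FG G k c p) := by
  unfold FG
  rw [sqrt_ff hk (norm_nonneg _), sqrt_ff hk (norm_nonneg _), sqrt_ff hk (norm_nonneg _),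
    sqrt_one_ff, sqrt_one_ff]
  have h1 := norm_lg_tri G c x p
  have h2 : sn k (‖G.lg c x‖ / 2) ≤ sn k (‖G.lg p x‖ / 2 + ‖G.lg c p‖ / 2) :=
    (sn_strictMono hk).monotone (by linarith)
  rw [sn_add] at h2
  have h3 := mul_le_mul_of_nonneg_left h2 (Real.sqrt_nonneg 2)
  linarith

theorem sg_eq_sig (hn : 2 ≤ n) : sg ((n : ℝ) - 1) = sig n := by
  rw [End.sg_sub_one hn, sig_eq_gamma (by omega)]

end Vale.Agent.P219.SA
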